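import Vale.Agent.P216.H923E.Geo
import Vale.Agent.P216.C313.LowMain

/-!
# P216-D, [E2], the geometry of the fibre step II

(G3): `φ x ~ φ y` on the paths which start near `x` and near `y`; (G4): change of the level.
-/

set_option linter.all false

open Set BoundedContinuousFunction

namespace Vale.Agent.P216.H923E

open Vale.Agent.P216.PS Vale.Agent.P216.MV337 Vale.Agent.P216.C337
open Vale.Agent.P216.Sl (IsPi)

section UH

variable {I E E' : Type} [PseudoMetricSpace E] [PseudoMetricSpace E'] {Z : I → Set E}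
  {Y : I → Set E'} {f g : I → E → E'}

/-- Empty sources do not matter. -/
theorem UH.of_nonempty {p : I → Prop} (hp : ∀ i, (Z i).Nonempty → p i)
    (H : UH (fun i : {i // p i} => Z i.1) (fun i => Y i.1) (fun i => f i.1) fun i => g i.1) :
    UH Z Y f g := by
  classical
  obtain ⟨D, h1, h2, h3, h4, h5⟩ := H
  refine ⟨fun i s w => if h : p i then D ⟨i, h⟩ s w else f i w, fun i s hs w hw => ?_,
    fun i w hw => ?_, fun i w hw => ?_, fun ε hε => ?_, fun i ε hε => ?_⟩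
  · have h := hp i ⟨w, hw⟩
    show (if h : p i then D ⟨i, h⟩ s w else f i w) ∈ Y i
    rw [dif_pos h]
    exact h1 ⟨i, h⟩ s hs hw
  · have h := hp i ⟨w, hw⟩
    show (if h : p i then D ⟨i, h⟩ 0 w else f i w) = f i w
    rw [dif_pos h]
    exact h2 ⟨i, h⟩ hw
  · have h := hp i ⟨w, hw⟩
    show (if h : p i then D ⟨i, h⟩ 1 w else f i w) = g i w
    rw [dif_pos h]
    exact h3 ⟨i, h⟩ hw
  · obtain ⟨δ, hδ, h6⟩ := h4 ε hε
    refine ⟨δ, hδ, fun i s hs w hw w' hw' hd => ?_⟩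
    have h := hp i ⟨w, hw⟩
    show dist (if h : p i then D ⟨i, h⟩ s w else f i w)
      (if h : p i then D ⟨i, h⟩ s w' else f i w') < ε
    rw [dif_pos h, dif_pos h]
    exact h6 ⟨i, h⟩ s hs w hw w' hw' hd
  · by_cases h : p i
    · obtain ⟨δ, hδ, h6⟩ := h5 ⟨i, h⟩ ε hε
      refine ⟨δ, hδ, fun s hs s' hs' hd w hw => ?_⟩
      show dist (if h : p i then D ⟨i, h⟩ s w else f i w)
        (if h : p i then D ⟨i, h⟩ s' w else f i w) < ε
      rw [dif_pos h, dif_pos h]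
      exact h6 s hs s' hs' hd w hw
    · exact ⟨1, one_pos, fun s hs s' hs' hd w hw => absurd (hp i ⟨w, hw⟩) h⟩

end UH

section Pt

variable {M : Type} [MetricSpace M] {m t : ℝ} {a z : M} {p : ℝ → M}

theorem Pt.of_P {w : ℝ →ᵇ M} (h : w ∈ P a z t) : Pt t a z w :=
  ⟨h.1, fun u hu => eq_left h hu, fun u hu => eq_right h hu⟩

theorem Pt.mo [CompactSpace M] (h : Pt m a z p) : mo p ∈ P a z m := mo_mem h.1 h.2.1 h.2.2

end Pt

variable {M : Type} [MetricSpace M] {ρ R : ℝ} {a x y : M} [CompactSpace M]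
variable {g : M → M} {x₀ : M} {ℓ₀ D ℓ r0 t s : ℝ} {c : M → ℝ → M}

namespace Tr0

variable (T : Tr0 x₀ ρ R ℓ₀ D ℓ r0 c)
include T

/-- The path from `φ x` to `φ y`, behind `y`. -/
theorem exists_gamma (h : dist x y ≤ 2 * r0) : ∃ γ : ℝ → ℝ →ᵇ M, Continuous γ ∧
    (γ 0 : ℝ → M) = catf R (sg R y x) (c x) ∧ (γ 1 : ℝ → M) = c y ∧
      ∀ σ ∈ Icc (0:ℝ) 1, Pt ℓ y x₀ (γ σ) := by
  have hR := T.hR
  have h1 : Pt (R + ℓ₀) y x₀ (catf R (sg R y x) (c x)) :=
    (sg_pt T.hU T.hR (by rw [dist_comm]; linarith [T.hrR, T.hRρ])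
      (by rw [dist_comm]; linarith [T.hrR])).cat (T.hc x) T.hR.le T.hℓ₀
  have h2 : Pt (R + ℓ₀) y x₀ (c y) := (T.hc y).le (by linarith)
  have hj := T.hD.join y x₀ (R + ℓ₀) (by linarith [T.hℓ₀]) _ h1.mo _ h2.mo
  refine ⟨hj.somePath.extend, hj.somePath.continuous_extend, ?_, ?_, fun σ hσ => ?_⟩
  · rw [hj.somePath.extend_zero]
    funext u
    exact h1.1.mo_apply u
  · rw [hj.somePath.extend_one]
    funext u
    exact h2.1.mo_apply u
  · exact (Pt.of_P (hj.somePath_mem (projIcc 0 1 zero_le_one σ))).le T.hℓ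

/-- **(G3)** -/
theorem g3 (hg : ∀ x y, dist (g x) (g y) ≤ dist x y) (ht : 0 ≤ t) :
    UH (fun i : M × M => XL g (NB i.1 r0 ∩ NB i.2 r0) t)
      (fun _ => XL g {x₀} (t + (R + ℓ + (R + ℓ)))) (fun i => phi g R ℓ c i.1 t)
      fun i => phi g R ℓ c i.2 t := by
  have hm := T.m_nonneg
  have hℓ := T.ℓ_nonneg
  have hR := T.hR
  have hr0 := T.hr0
  have hrR := T.hrR
  have hRρ := T.hRρ
  have hℓ₀ := T.hℓ₀
  have hℓ1 : R + ℓ₀ ≤ ℓ := by linarith [T.hℓ, T.hD.nonneg]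
  refine UH.of_nonempty (p := fun i : M × M => dist i.1 i.2 ≤ 2 * r0) (fun i hi => ?_) ?_
  · obtain ⟨w, h1, h2, h3⟩ := hi
    have h2' : dist i.1 (w 0) ≤ r0 := h2
    have h3' : dist i.2 (w 0) ≤ r0 := h3
    rw [dist_comm] at h3'
    linarith [dist_triangle i.1 (w 0) i.2]
  have hd1 : ∀ (i : {i : M × M // dist i.1 i.2 ≤ 2 * r0}) (a : M),
      a ∈ NB i.1.1 r0 ∩ NB i.1.2 r0 → dist a i.1.1 ≤ r0 ∧ dist a i.1.2 ≤ r0 := fun i a ha => by
    have h2 : dist i.1.1 a ≤ r0 := ha.1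
    have h3 : dist i.1.2 a ≤ r0 := ha.2
    rw [dist_comm] at h2 h3
    exact ⟨h2, h3⟩
  -- the waiting time
  have HA := uh_conj (m := R + ℓ)
    (D := fun i : {i : M × M // dist i.1 i.2 ≤ 2 * r0} => NB i.1.1 r0 ∩ NB i.1.2 r0)
    (V := fun _ => {x₀}) hg hm ht
    (fun i σ a u => catf R (sg R a i.1.1) (c i.1.1) (u - σ * R))
    (fun i σ hσ a ha => ⟨x₀, rfl, ?_, ?_, ?_⟩)
    (fun ε hε => ?_)
    (fun i ε hε => ⟨ε / R, by positivity, fun σ hσ σ' hσ' hd a ha u => ?_⟩)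
  rotate_left
  · exact ((T.sgp le_rfl ha.1).cat (T.hc _) hR.le hℓ₀).1.comp fun u v => by
      rw [show u - σ * R - (v - σ * R) = u - v by ring]
  · intro u hu
    have := mul_nonneg hσ.1 hR.le
    exact ((T.sgp le_rfl ha.1).cat (T.hc _) hR.le hℓ₀).2.1 _ (by linarith)
  · intro u hu
    have := mul_le_of_le_one_left hR.le hσ.2
    exact ((T.sgp le_rfl ha.1).cat (T.hc _) hR.le hℓ₀).2.2 _ (by linarith)
  · obtain ⟨δ, hδ, h⟩ := T.pφ_unif hε
    exact ⟨δ, hδ, fun i σ _ a ha a' ha' hd u => h i.1.1 a ha.1 a' ha'.1 hd _⟩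
  · refine (((T.sgp le_rfl ha.1).cat (T.hc _) hR.le hℓ₀).1 _ _).trans ?_
    rw [show u - σ * R - (u - σ' * R) = -((σ - σ') * R) by ring, abs_neg, abs_mul, abs_of_pos hR]
    exact (mul_le_mul_of_nonneg_right hd.le hR.le).trans_eq (div_mul_cancel₀ _ hR.ne')
  -- along the segment to `y`
  have hz : ∀ (i : {i : M × M // dist i.1 i.2 ≤ 2 * r0}), ∀ σ ∈ Icc (0:ℝ) 1,
      ∀ a ∈ NB i.1.1 r0 ∩ NB i.1.2 r0, dist a (LS.seg a i.1.2 σ) ≤ r0 ∧
        dist (LS.seg a i.1.2 σ) i.1.1 ≤ 2 * r0 := fun i σ hσ a ha => by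
    obtain ⟨h2, h3⟩ := hd1 i a ha
    have h4 : dist a (LS.seg a i.1.2 σ) ≤ r0 := by
      rw [LS.dist_left_seg T.hU (by linarith) hσ]
      exact (mul_le_of_le_one_left dist_nonneg hσ.2).trans h3
    refine ⟨h4, ?_⟩
    linarith [dist_triangle (LS.seg a i.1.2 σ) a i.1.1, dist_comm a (LS.seg a i.1.2 σ)]
  have hzs : ∀ (i : {i : M × M // dist i.1 i.2 ≤ 2 * r0}), ∀ σ ∈ Icc (0:ℝ) 1,
      ∀ a ∈ NB i.1.1 r0 ∩ NB i.1.2 r0, Pt R a (LS.seg a i.1.2 σ) (sg R a (LS.seg a i.1.2 σ)) ∧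
        Pt (R + ℓ₀) (LS.seg a i.1.2 σ) x₀
          (catf R (sg R (LS.seg a i.1.2 σ) i.1.1) (c i.1.1)) := fun i σ hσ a ha => by
    obtain ⟨h2, h3⟩ := hz i σ hσ a ha
    exact ⟨sg_pt T.hU hR (by linarith) (by linarith),
      (sg_pt T.hU hR (by linarith) (by linarith)).cat (T.hc _) hR.le hℓ₀⟩
  have HB := uh_conj (m := R + ℓ)
    (D := fun i : {i : M × M // dist i.1 i.2 ≤ 2 * r0} => NB i.1.1 r0 ∩ NB i.1.2 r0)
    (V := fun _ => {x₀}) hg hm ht
    (fun i σ a => catf R (sg R a (LS.seg a i.1.2 σ))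
      (catf R (sg R (LS.seg a i.1.2 σ) i.1.1) (c i.1.1)))
    (fun i σ hσ a ha => ⟨x₀, rfl, ?_⟩)
    (fun ε hε => ?_)
    (fun i ε hε => ?_)
  rotate_left
  · exact ((hzs i σ hσ a ha).1.cat (hzs i σ hσ a ha).2 hR.le (by linarith)).le (by linarith)
  · obtain ⟨δ, hδ, h⟩ := sg_unif (R := R) T.hU hRρ hε
    obtain ⟨δ', hδ', h'⟩ := LS.unifCont_seg T.hU hRρ hδ
    refine ⟨min δ δ', lt_min hδ hδ', fun i σ hσ a ha a' ha' hd => ?_⟩
    have e1 : dist a a' ≤ δ := hd.le.trans (min_le_left _ _)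
    have e2 : dist a a' ≤ δ' := hd.le.trans (min_le_right _ _)
    have e3 : dist (LS.seg a i.1.2 σ) (LS.seg a' i.1.2 σ) ≤ δ :=
      h' a a' _ _ σ σ (by linarith [(hd1 i a ha).2]) (by linarith [(hd1 i a' ha').2]) hσ hσ e2
        (by rw [dist_self]; exact hδ'.le) (by rw [sub_self, abs_zero]; exact hδ'.le)
    have e4 := hz i σ hσ a ha
    have e5 := hz i σ hσ a' ha'
    refine dist_catf_le (fun u => h a a' _ _ u (by linarith) (by linarith) e1 e3)
      (dist_catf_le (fun u => h _ _ _ _ u (by linarith) (by linarith) e3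
        (by rw [dist_self]; exact hδ.le)) fun u => by rw [dist_self]; exact hε.le)
  · obtain ⟨δ, hδ, h⟩ := sg_unif (R := R) T.hU hRρ hε
    refine ⟨δ / r0, by positivity, fun σ hσ σ' hσ' hd a ha => ?_⟩
    have e3 : dist (LS.seg a i.1.2 σ) (LS.seg a i.1.2 σ') ≤ δ := by
      rw [LS.dist_seg_seg T.hU (by linarith [(hd1 i a ha).2]) hσ hσ']
      refine (mul_le_mul hd.le (hd1 i a ha).2 dist_nonneg (by positivity)).trans_eq ?_
      exact div_mul_cancel₀ _ hr0.ne'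
    have e4 := hz i σ hσ a ha
    have e5 := hz i σ' hσ' a ha
    refine dist_catf_le (fun u => h a a _ _ u (by linarith) (by linarith)
      (by rw [dist_self]; exact hδ.le) e3)
      (dist_catf_le (fun u => h _ _ _ _ u (by linarith) (by linarith) e3
        (by rw [dist_self]; exact hδ.le)) fun u => by rw [dist_self]; exact hε.le)
  -- behind `y`
  choose γ hγ1 hγ2 hγ3 hγ4 using fun i : {i : M × M // dist i.1 i.2 ≤ 2 * r0} => T.exists_gamma i.2
  have HC := uh_conj (m := R + ℓ)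
    (D := fun i : {i : M × M // dist i.1 i.2 ≤ 2 * r0} => NB i.1.1 r0 ∩ NB i.1.2 r0)
    (V := fun _ => {x₀}) hg hm ht
    (fun i σ a => catf R (sg R a i.1.2) (γ i σ))
    (fun i σ hσ a ha => ⟨x₀, rfl, (T.sgp le_rfl ha.2).cat (hγ4 i σ hσ) hR.le hℓ⟩)
    (fun ε hε => ?_)
    (fun i ε hε => ?_)
  rotate_left
  · obtain ⟨δ, hδ, h⟩ := sg_unif (R := R) T.hU hRρ hε
    refine ⟨δ, hδ, fun i σ hσ a ha a' ha' hd => dist_catf_le (fun u => h a a' _ _ u
      (by linarith [(hd1 i a ha).2]) (by linarith [(hd1 i a' ha').2]) hd.le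
      (by rw [dist_self]; exact hδ.le)) fun u => by rw [dist_self]; exact hε.le⟩
  · have hu := isCompact_Icc.uniformContinuousOn_of_continuous (s := Icc (0:ℝ) 1)
      (hγ1 i).continuousOn
    rw [Metric.uniformContinuousOn_iff] at hu
    obtain ⟨δ, hδ, h⟩ := hu ε hε
    refine ⟨δ, hδ, fun σ hσ σ' hσ' hd a ha => dist_catf_le
      (fun u => by rw [dist_self]; exact hε.le) fun u => ?_⟩
    exact (BoundedContinuousFunction.dist_coe_le_dist _).trans (h σ hσ σ' hσ' hd).le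
  refine ((HA.congr (f' := fun i w => phi g R ℓ c i.1.1 t w)
    (g' := fun i w => cg g (R + ℓ) t (catf R (sg R (w 0) (w 0))
      (catf R (sg R (w 0) i.1.1) (c i.1.1))) w) (fun i w hw => ?_) fun i w hw => ?_).trans
    ((HB.congr (f' := fun i w => cg g (R + ℓ) t (catf R (sg R (w 0) (w 0))
      (catf R (sg R (w 0) i.1.1) (c i.1.1))) w)
    (g' := fun i w => cg g (R + ℓ) t (catf R (sg R (w 0) i.1.2)
      (catf R (sg R i.1.2 i.1.1) (c i.1.1))) w) (fun i w hw => ?_) fun i w hw => ?_).trans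
    (HC.congr (f' := fun i w => cg g (R + ℓ) t (catf R (sg R (w 0) i.1.2)
      (catf R (sg R i.1.2 i.1.1) (c i.1.1))) w) (g' := fun i w => phi g R ℓ c i.1.2 t w)
      (fun i w hw => ?_) fun i w hw => ?_)))
  · show cg g _ t (fun u => catf R (sg R (w 0) i.1.1) (c i.1.1) (u - 0 * R)) w = _
    simp only [zero_mul, sub_zero]
    rfl
  · show cg g _ t (fun u => catf R (sg R (w 0) i.1.1) (c i.1.1) (u - 1 * R)) w = _
    congr 1
    funext u
    rw [one_mul]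
    have hP := (T.sgp le_rfl hw.2.1).cat (T.hc i.1.1) hR.le hℓ₀
    rcases le_total u R with h | h
    · rw [catf_left h, hP.2.1 _ (by linarith), sg_self]
    · have e : sg R (w 0) (w 0) R = catf R (sg R (w 0) i.1.1) (c i.1.1) 0 := by
        rw [sg_self, hP.2.1 _ le_rfl]
      rw [catf_right e h]
  · show cg g _ t (catf R (sg R (w 0) (LS.seg (w 0) i.1.2 0)) (catf R (sg R
      (LS.seg (w 0) i.1.2 0) i.1.1) (c i.1.1))) w = _
    rw [LS.seg_zero]
  · show cg g _ t (catf R (sg R (w 0) (LS.seg (w 0) i.1.2 1)) (catf R (sg R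
      (LS.seg (w 0) i.1.2 1) i.1.1) (c i.1.1))) w = _
    rw [LS.seg_one]
  · show cg g _ t (catf R (sg R (w 0) i.1.2) (γ i 0)) w = _
    rw [hγ2]
  · show cg g _ t (catf R (sg R (w 0) i.1.2) (γ i 1)) w = _
    rw [hγ3]
    rfl

/-- **(G4)** for `φ` -/
theorem g4 (hg : ∀ x y, dist (g x) (g y) ≤ dist x y) (hs : 0 ≤ s) (hst : s ≤ t) :
    UH (fun x : M => XL g (NB x r0) s) (fun _ => XL g {x₀} (t + (R + ℓ + (R + ℓ))))
      (fun x => phi g R ℓ c x s) fun x => phi g R ℓ c x t :=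
  uh_level (D := fun x => NB x r0) (V := fun _ => {x₀}) hg T.m_nonneg hs hst
    (fun x a => pφ R c x a) (fun x a ha => ⟨x₀, rfl, T.pφ_pt le_rfl ha⟩) fun ε hε => T.pφ_unif hε

/-- **(G4)** for `ψ` -/
theorem g4' (hg : ∀ x y, dist (g x) (g y) ≤ dist x y) (hs : 0 ≤ s) (hst : s ≤ t) :
    UH (fun _ : M => XL g {x₀} s) (fun x => XL g {x} (t + (R + ℓ + (R + ℓ))))
      (fun x => psi g R ℓ c x s) fun x => psi g R ℓ c x t :=
  uh_level (D := fun _ => {x₀}) (V := fun x => {x}) hg T.m_nonneg hs hst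
    (fun x _ => pψ ℓ c x) (fun x a ha => ⟨x, rfl, by
      have h : a = x₀ := ha
      rw [h]
      exact T.pψ_pt x⟩) fun ε hε => ⟨1, one_pos, fun x a _ a' _ _ u => by
      rw [dist_self]; exact hε.le⟩

end Tr0

/-- The tracks exist. -/
theorem exists_tr0 [SimplyConnectedSpace M] (hρ : 0 < ρ) (hU : LS.UniqSeg M ρ) (x₀ : M) :
    ∃ R ℓ₀ D ℓ r0 : ℝ, ∃ c : M → ℝ → M, Tr0 x₀ ρ R ℓ₀ D ℓ r0 c := by
  obtain ⟨D, hD⟩ := C313.exists_isPi hρ hU
  choose v hv using fun x => hD.ne x x₀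
  exact ⟨ρ / 2, D, D, ρ / 2 + D + D, ρ / 4, fun x => v x, hU, by linarith, by linarith,
    by linarith, by linarith, hD.nonneg, hD, le_rfl, fun x => Pt.of_P (hv x)⟩

end Vale.Agent.P216.H923E
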