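import Vale.Agent.P216.D907.Chain
import Vale.Agent.P216.C337.Tw

/-!
# P216-D, [E2]: uniform families of maps and homotopies

`UM Z Y f`: the maps `f i : Z i → Y i`, `i : I`, with a common modulus of continuity.
`UH Z Y f g`: homotopies `f i ~ g i : Z i → Y i` whose modulus in the point does not depend on `i`
(the modulus in the time may depend on `i`).
`UH.list`: the effect on list cocycles, with scales independent of `i`.
-/

set_option linter.all false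

open Set

namespace Vale.Agent.P216.H923E

open Vale.Agent.P216.Sl Vale.Agent.P216.PS

variable {I J E E' E'' : Type} [PseudoMetricSpace E] [PseudoMetricSpace E']
  [PseudoMetricSpace E'']

/-- Maps with a common modulus. -/
def UM (Z : I → Set E) (Y : I → Set E') (f : I → E → E') : Prop :=
  (∀ i, MapsTo (f i) (Z i) (Y i)) ∧
  ∀ ε > 0, ∃ δ > 0, ∀ i, ∀ w ∈ Z i, ∀ w' ∈ Z i, dist w w' < δ → dist (f i w) (f i w') < ε

/-- Homotopies with a common modulus in the point. -/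
def UH (Z : I → Set E) (Y : I → Set E') (f g : I → E → E') : Prop :=
  ∃ H : I → ℝ → E → E', (∀ i, ∀ s ∈ Icc (0:ℝ) 1, MapsTo (H i s) (Z i) (Y i)) ∧
    (∀ i, EqOn (H i 0) (f i) (Z i)) ∧ (∀ i, EqOn (H i 1) (g i) (Z i)) ∧
    (∀ ε > 0, ∃ δ > 0, ∀ i, ∀ s ∈ Icc (0:ℝ) 1, ∀ w ∈ Z i, ∀ w' ∈ Z i, dist w w' < δ →
      dist (H i s w) (H i s w') < ε) ∧
    ∀ i, ∀ ε > 0, ∃ δ > 0, ∀ s ∈ Icc (0:ℝ) 1, ∀ s' ∈ Icc (0:ℝ) 1, |s - s'| < δ → ∀ w ∈ Z i,
      dist (H i s w) (H i s' w) < ε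

theorem zero_mem_I : (0:ℝ) ∈ Icc (0:ℝ) 1 := ⟨le_rfl, zero_le_one⟩

theorem one_mem_I : (1:ℝ) ∈ Icc (0:ℝ) 1 := ⟨zero_le_one, le_rfl⟩

namespace UM

variable {Z Z' : I → Set E} {Y Y' : I → Set E'} {V : I → Set E''} {f : I → E → E'}

theorem mono (h : UM Z Y f) (hZ : ∀ i, Z' i ⊆ Z i) (hY : ∀ i, Y i ⊆ Y' i) : UM Z' Y' f :=
  ⟨fun i => (h.1 i).mono (hZ i) (hY i), fun ε hε => by
    obtain ⟨δ, hδ, h2⟩ := h.2 ε hε
    exact ⟨δ, hδ, fun i w hw w' hw' => h2 i w (hZ i hw) w' (hZ i hw')⟩⟩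

theorem comp {g : I → E' → E''} (hg : UM Y V g) (h : UM Z Y f) : UM Z V fun i => g i ∘ f i := by
  refine ⟨fun i => (hg.1 i).comp (h.1 i), fun ε hε => ?_⟩
  obtain ⟨δ, hδ, h1⟩ := hg.2 ε hε
  obtain ⟨η, hη, h2⟩ := h.2 δ hδ
  exact ⟨η, hη, fun i w hw w' hw' hd => h1 i _ (h.1 i hw) _ (h.1 i hw') (h2 i w hw w' hw' hd)⟩

/-- Restriction of the index. -/
theorem pb (h : UM Z Y f) (a : J → I) : UM (fun j => Z (a j)) (fun j => Y (a j)) fun j => f (a j) :=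
  ⟨fun j => h.1 (a j), fun ε hε => by
    obtain ⟨δ, hδ, h2⟩ := h.2 ε hε
    exact ⟨δ, hδ, fun j => h2 (a j)⟩⟩

end UM

theorem UM.id_ {Z Z' : I → Set E} (h : ∀ i, Z i ⊆ Z' i) : UM Z Z' fun _ => id :=
  ⟨fun i => h i, fun ε hε => ⟨ε, hε, fun _ _ _ _ _ h => h⟩⟩

namespace UH

variable {Z Z' : I → Set E} {Y Y' : I → Set E'} {V : I → Set E''} {f g h : I → E → E'}

theorem umL (H : UH Z Y f g) : UM Z Y f := by
  obtain ⟨D, h1, h2, h3, h4, h5⟩ := H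
  refine ⟨fun i w hw => by rw [← h2 i hw]; exact h1 i 0 zero_mem_I hw, fun ε hε => ?_⟩
  obtain ⟨δ, hδ, h⟩ := h4 ε hε
  refine ⟨δ, hδ, fun i w hw w' hw' hd => ?_⟩
  rw [← h2 i hw, ← h2 i hw']
  exact h i 0 zero_mem_I w hw w' hw' hd

theorem mono (H : UH Z Y f g) (hZ : ∀ i, Z' i ⊆ Z i) (hY : ∀ i, Y i ⊆ Y' i) : UH Z' Y' f g := by
  obtain ⟨D, h1, h2, h3, h4, h5⟩ := H
  refine ⟨D, fun i s hs => (h1 i s hs).mono (hZ i) (hY i), fun i => (h2 i).mono (hZ i),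
    fun i => (h3 i).mono (hZ i), fun ε hε => ?_, fun i ε hε => ?_⟩
  · obtain ⟨δ, hδ, h⟩ := h4 ε hε
    exact ⟨δ, hδ, fun i s hs w hw w' hw' => h i s hs w (hZ i hw) w' (hZ i hw')⟩
  · obtain ⟨δ, hδ, h⟩ := h5 i ε hε
    exact ⟨δ, hδ, fun s hs s' hs' hd w hw => h s hs s' hs' hd w (hZ i hw)⟩

theorem congr {f' g' : I → E → E'} (H : UH Z Y f g) (hf : ∀ i, EqOn (f i) (f' i) (Z i))
    (hg : ∀ i, EqOn (g i) (g' i) (Z i)) : UH Z Y f' g' := by
  obtain ⟨D, h1, h2, h3, h4, h5⟩ := H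
  exact ⟨D, h1, fun i => (h2 i).trans (hf i), fun i => (h3 i).trans (hg i), h4, h5⟩

theorem refl (hf : UM Z Y f) : UH Z Y f f :=
  ⟨fun i _ => f i, fun i _ _ => hf.1 i, fun _ _ _ => rfl, fun _ _ _ => rfl, fun ε hε => by
    obtain ⟨δ, hδ, h⟩ := hf.2 ε hε
    exact ⟨δ, hδ, fun i _ _ => h i⟩, fun i ε hε => ⟨1, one_pos, fun _ _ _ _ _ w _ => by
      rwa [dist_self]⟩⟩

/-- Restriction of the index. -/
theorem pb (H : UH Z Y f g) (a : J → I) :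
    UH (fun j => Z (a j)) (fun j => Y (a j)) (fun j => f (a j)) fun j => g (a j) := by
  obtain ⟨D, h1, h2, h3, h4, h5⟩ := H
  refine ⟨fun j => D (a j), fun j => h1 (a j), fun j => h2 (a j), fun j => h3 (a j),
    fun ε hε => ?_, fun j => h5 (a j)⟩
  obtain ⟨δ, hδ, h⟩ := h4 ε hε
  exact ⟨δ, hδ, fun j => h (a j)⟩

theorem symm (H : UH Z Y f g) : UH Z Y g f := by
  obtain ⟨D, h1, h2, h3, h4, h5⟩ := H
  have key : ∀ s ∈ Icc (0:ℝ) 1, 1 - s ∈ Icc (0:ℝ) 1 := fun s hs =>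
    ⟨by linarith [hs.2], by linarith [hs.1]⟩
  refine ⟨fun i s => D i (1 - s), fun i s hs => h1 i _ (key s hs), fun i w hw => ?_,
    fun i w hw => ?_, fun ε hε => ?_, fun i ε hε => ?_⟩
  · show D i (1 - 0) w = g i w
    rw [sub_zero, h3 i hw]
  · show D i (1 - 1) w = f i w
    rw [sub_self, h2 i hw]
  · obtain ⟨δ, hδ, h⟩ := h4 ε hε
    exact ⟨δ, hδ, fun i s hs => h i _ (key s hs)⟩
  · obtain ⟨δ, hδ, h⟩ := h5 i ε hε
    refine ⟨δ, hδ, fun s hs s' hs' hd => h _ (key s hs) _ (key s' hs') ?_⟩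
    rwa [show 1 - s - (1 - s') = -(s - s') by ring, abs_neg]

theorem trans (H : UH Z Y f g) (H' : UH Z Y g h) : UH Z Y f h := by
  obtain ⟨D, h1, h2, h3, h4, h5⟩ := H
  obtain ⟨G, g1, g2, g3, g4, g5⟩ := H'
  have k1 : ∀ s ∈ Icc (0:ℝ) 1, s ≤ 1 / 2 → 2 * s ∈ Icc (0:ℝ) 1 := fun s hs h =>
    ⟨by linarith [hs.1], by linarith⟩
  have k2 : ∀ s ∈ Icc (0:ℝ) 1, ¬ s ≤ 1 / 2 → 2 * s - 1 ∈ Icc (0:ℝ) 1 := fun s hs h =>
    ⟨by linarith [not_le.1 h], by linarith [hs.2]⟩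
  refine ⟨fun i s w => if s ≤ 1 / 2 then D i (2 * s) w else G i (2 * s - 1) w,
    fun i s hs w hw => ?_, fun i w hw => ?_, fun i w hw => ?_, fun ε hε => ?_, fun i ε hε => ?_⟩
  · show (if s ≤ 1 / 2 then D i (2 * s) w else G i (2 * s - 1) w) ∈ Y i
    split_ifs with h
    · exact h1 i _ (k1 s hs h) hw
    · exact g1 i _ (k2 s hs h) hw
  · show (if (0:ℝ) ≤ 1 / 2 then D i (2 * 0) w else G i (2 * 0 - 1) w) = f i w
    rw [if_pos (by norm_num), mul_zero, h2 i hw]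
  · show (if (1:ℝ) ≤ 1 / 2 then D i (2 * 1) w else G i (2 * 1 - 1) w) = h i w
    rw [if_neg (by norm_num), show (2:ℝ) * 1 - 1 = 1 by norm_num, g3 i hw]
  · obtain ⟨δ, hδ, h⟩ := h4 ε hε
    obtain ⟨δ', hδ', h'⟩ := g4 ε hε
    refine ⟨min δ δ', lt_min hδ hδ', fun i s hs w hw w' hw' hd => ?_⟩
    show dist (if s ≤ 1 / 2 then D i (2 * s) w else G i (2 * s - 1) w)
      (if s ≤ 1 / 2 then D i (2 * s) w' else G i (2 * s - 1) w') < ε
    split_ifs with hh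
    · exact h i _ (k1 s hs hh) w hw w' hw' (hd.trans_le (min_le_left _ _))
    · exact h' i _ (k2 s hs hh) w hw w' hw' (hd.trans_le (min_le_right _ _))
  · obtain ⟨δ, hδ, h⟩ := h5 i (ε / 2) (half_pos hε)
    obtain ⟨δ', hδ', h'⟩ := g5 i (ε / 2) (half_pos hε)
    -- the mixed case
    have mix : ∀ s ∈ Icc (0:ℝ) 1, s ≤ 1 / 2 → ∀ s' ∈ Icc (0:ℝ) 1, ¬ s' ≤ 1 / 2 →
        |s - s'| < min (δ / 2) (δ' / 2) → ∀ w ∈ Z i, dist (D i (2 * s) w) (G i (2 * s' - 1) w) < ε := by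
      intro s hs hh s' hs' hh' hd w hw
      have hd1 : s' - s < min (δ / 2) (δ' / 2) := by
        rw [abs_sub_comm] at hd
        exact (le_abs_self _).trans_lt hd
      have hh2 := not_le.1 hh'
      have e1 : dist (D i (2 * s) w) (D i 1 w) < ε / 2 := by
        refine h _ (k1 s hs hh) _ one_mem_I ?_ w hw
        rw [abs_of_nonpos (by linarith)]
        linarith [hd1.trans_le (min_le_left _ _)]
      have e2 : dist (G i 0 w) (G i (2 * s' - 1) w) < ε / 2 := by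
        refine h' _ zero_mem_I _ (k2 s' hs' hh') ?_ w hw
        rw [abs_of_nonpos (by linarith)]
        linarith [hd1.trans_le (min_le_right _ _)]
      have e3 : D i 1 w = G i 0 w := by rw [h3 i hw, g2 i hw]
      rw [e3] at e1
      linarith [dist_triangle (D i (2 * s) w) (G i 0 w) (G i (2 * s' - 1) w)]
    refine ⟨min (δ / 2) (δ' / 2), lt_min (half_pos hδ) (half_pos hδ'),
      fun s hs s' hs' hd w hw => ?_⟩
    show dist (if s ≤ 1 / 2 then D i (2 * s) w else G i (2 * s - 1) w)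
      (if s' ≤ 1 / 2 then D i (2 * s') w else G i (2 * s' - 1) w) < ε
    split_ifs with hh hh' hh'
    · refine (h _ (k1 s hs hh) _ (k1 s' hs' hh') ?_ w hw).trans (by linarith)
      rw [show 2 * s - 2 * s' = 2 * (s - s') by ring, abs_mul, abs_two]
      linarith [hd.trans_le (min_le_left _ _)]
    · exact mix s hs hh s' hs' hh' hd w hw
    · rw [dist_comm]
      exact mix s' hs' hh' s hs hh (by rwa [abs_sub_comm]) w hw
    · refine (h' _ (k2 s hs hh) _ (k2 s' hs' hh') ?_ w hw).trans (by linarith)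
      rw [show 2 * s - 1 - (2 * s' - 1) = 2 * (s - s') by ring, abs_mul, abs_two]
      linarith [hd.trans_le (min_le_right _ _)]

theorem comp_left {j : I → E' → E''} (hj : UM Y V j) (H : UH Z Y f g) :
    UH Z V (fun i => j i ∘ f i) fun i => j i ∘ g i := by
  obtain ⟨D, h1, h2, h3, h4, h5⟩ := H
  refine ⟨fun i s => j i ∘ D i s, fun i s hs => (hj.1 i).comp (h1 i s hs), fun i w hw => ?_,
    fun i w hw => ?_, fun ε hε => ?_, fun i ε hε => ?_⟩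
  · show j i (D i 0 w) = j i (f i w)
    rw [h2 i hw]
  · show j i (D i 1 w) = j i (g i w)
    rw [h3 i hw]
  · obtain ⟨δ, hδ, h⟩ := hj.2 ε hε
    obtain ⟨η, hη, h'⟩ := h4 δ hδ
    exact ⟨η, hη, fun i s hs w hw w' hw' hd =>
      h i _ (h1 i s hs hw) _ (h1 i s hs hw') (h' i s hs w hw w' hw' hd)⟩
  · obtain ⟨δ, hδ, h⟩ := hj.2 ε hε
    obtain ⟨η, hη, h'⟩ := h5 i δ hδ
    exact ⟨η, hη, fun s hs s' hs' hd w hw =>
      h i _ (h1 i s hs hw) _ (h1 i s' hs' hw) (h' s hs s' hs' hd w hw)⟩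

theorem comp_right {V : I → Set E''} {j : I → E'' → E} (H : UH Z Y f g) (hj : UM V Z j) :
    UH V Y (fun i => f i ∘ j i) fun i => g i ∘ j i := by
  obtain ⟨D, h1, h2, h3, h4, h5⟩ := H
  refine ⟨fun i s => D i s ∘ j i, fun i s hs => (h1 i s hs).comp (hj.1 i),
    fun i w hw => h2 i (hj.1 i hw), fun i w hw => h3 i (hj.1 i hw), fun ε hε => ?_,
    fun i ε hε => ?_⟩
  · obtain ⟨δ, hδ, h⟩ := h4 ε hε
    obtain ⟨η, hη, h'⟩ := hj.2 δ hδ
    exact ⟨η, hη, fun i s hs w hw w' hw' hd =>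
      h i s hs _ (hj.1 i hw) _ (hj.1 i hw') (h' i w hw w' hw' hd)⟩
  · obtain ⟨δ, hδ, h⟩ := h5 i ε hε
    exact ⟨δ, hδ, fun s hs s' hs' hd w hw => h s hs s' hs' hd _ (hj.1 i hw)⟩

/-- **The effect on list cocycles**, with scales independent of the index. -/
theorem list {k : Type} [Field k] (H : UH Z Y f g) (n : ℕ) : ∀ r > 0, ∃ δ > 0, ∀ i,
    ∀ F : List E' → k, (∀ l, l.length = n + 2 → SmL (Y i) r l → dl F l = 0) →
      ∃ G : List E → k, (n = 0 → ∀ l, G l = 0) ∧ ∀ l, l.length = n + 1 → SmL (Z i) δ l →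
        F (l.map (g i)) - F (l.map (f i)) = dl G l := by
  obtain ⟨D, h1, h2, h3, h4, h5⟩ := H
  intro r hr
  obtain ⟨δ, hδ, h4⟩ := h4 (r / 2) (half_pos hr)
  refine ⟨δ, hδ, fun i F hF => ?_⟩
  obtain ⟨η, hη, h5⟩ := h5 i (r / 2) (half_pos hr)
  obtain ⟨N, hN⟩ := exists_nat_gt (1 / η)
  have hN0 : (0:ℝ) < N := (by positivity : 0 < 1 / η).trans hN
  have hN1 : 1 / (N:ℝ) < η := by
    rw [div_lt_iff₀ hN0]
    rw [div_lt_iff₀ hη] at hN
    linarith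
  have hmem : ∀ i : ℕ, i ≤ N → (i:ℝ) / N ∈ Icc (0:ℝ) 1 := fun i hi =>
    ⟨by positivity, (div_le_one hN0).2 (by exact_mod_cast hi)⟩
  obtain ⟨G, hG0, hG⟩ := D907.chain_contig (N := N) (δ := δ) (r := r) (n := n) (f := F)
    (fun j => D i ((j:ℝ) / N)) (fun j hj w hw => h1 i _ (hmem j hj) hw)
    (fun j hj w hw w' hw' hd => ⟨(h4 i _ (hmem j hj) w hw w' hw' hd).trans (by linarith),
      fun hj' => by
        have e1 := h5 _ (hmem j hj) _ (hmem (j + 1) hj') (by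
          rw [show (j:ℝ) / N - ((j + 1 : ℕ):ℝ) / N = -(1 / N) by push_cast; ring, abs_neg,
            abs_of_pos (by positivity)]
          exact hN1) w hw
        have e2 := h4 i _ (hmem (j + 1) hj') w hw w' hw' hd
        linarith [dist_triangle (D i ((j:ℝ) / N) w) (D i (((j + 1 : ℕ):ℝ) / N) w)
          (D i (((j + 1 : ℕ):ℝ) / N) w')]⟩) hF
  refine ⟨G, hG0, fun l hl hs => ?_⟩
  rw [← hG l hl hs]
  have e1 : l.map (D i ((N:ℝ) / N)) = l.map (g i) := List.map_congr_left fun w hw => by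
    rw [div_self hN0.ne', h3 i (hs.1 w hw)]
  have e2 : l.map (D i (((0:ℕ):ℝ) / N)) = l.map (f i) := List.map_congr_left fun w hw => by
    rw [Nat.cast_zero, zero_div, h2 i (hs.1 w hw)]
  rw [e1, e2]

end UH

end Vale.Agent.P216.H923E
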