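import Vale.Agent.P216.H923E.Geo2
import Vale.Agent.P216.H892.FibU
import Vale.Agent.P216.H754B.Rev

/-!
# P216-D, [E2]: the geometry of the fibre step, for `XG g`, and the reversal

`fibU`: `FibU` for `π w = w 0`, `X t = XG g t`, `O t = P x₀ (g x₀) t`; `fibU_FL`, `fibU_PF`.
`phi_rv`, `psi_rv`: the reversal.
-/

set_option linter.all false

open Set BoundedContinuousFunction

namespace Vale.Agent.P216.H923E

open Vale.Agent.P216.PS Vale.Agent.P216.MV337 Vale.Agent.P216.C337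
open Vale.Agent.P216.Sl (IsPi)
open Vale.Agent.P216.H892 (FibU nbc fbr)
open Vale.Agent.P216.H754B (rv rv_apply rv_zero rv_mem_FL)

variable {M : Type} [MetricSpace M] {ρ R : ℝ} {a x y : M} [CompactSpace M]
variable {g : M → M} {x₀ : M} {ℓ₀ D ℓ r0 t s : ℝ} {c : M → ℝ → M}

omit [CompactSpace M] in
theorem nbc_eq (g : M → M) (t : ℝ) (x : M) (r : ℝ) :
    nbc (fun w : ℝ →ᵇ M => w 0) (XG g t) x r = XL g (NB x r) t := rfl

omit [CompactSpace M] in
theorem fbr_eq (g : M → M) (t : ℝ) (x : M) :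
    fbr (fun w : ℝ →ᵇ M => w 0) (XG g t) x = XL g {x} t := rfl

namespace Tr0

variable (T : Tr0 x₀ ρ R ℓ₀ D ℓ r0 c)
include T

/-- **The geometry of the fibre step.** -/
theorem fibU (hg : ∀ x y, dist (g x) (g y) ≤ dist x y) :
    FibU (fun w : ℝ →ᵇ M => w 0) (XG g) (fun t => P x₀ (g x₀) t) (R + ℓ + (R + ℓ)) r0
      (phi g R ℓ c) (psi g R ℓ c) where
  hc := by linarith [T.m_nonneg]
  hr := T.hr0
  monoX := fun s t h => XG_mono h
  monoO := fun s t h => P_mono h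
  um t ht := by
    have := T.g0 hg ht.le
    simp only [XL_singleton] at this
    exact this
  um' t ht := by
    have := T.umψ hg ht.le
    simp only [XL_singleton g x₀] at this
    exact this
  h1 t ht := by
    have := T.g1 hg ht.le
    simp only [XL_singleton g x₀] at this
    rw [show t + 2 * (R + ℓ + (R + ℓ)) = t + (R + ℓ + (R + ℓ)) + (R + ℓ + (R + ℓ)) by ring]
    exact this
  h2 t ht := by
    rw [show t + 2 * (R + ℓ + (R + ℓ)) = t + (R + ℓ + (R + ℓ)) + (R + ℓ + (R + ℓ)) by ring]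
    refine UH.of_nonempty (p := fun i => 0 ≤ i.2.1)
      (fun i ⟨w, h1, h2⟩ => dist_nonneg.trans h2) ?_
    exact (T.g2 hg ht.le).pb fun i : {i : M × {r : ℝ // r ≤ r0} // 0 ≤ i.2.1} =>
      (⟨(i.1.1, i.1.2.1), i.2, i.1.2.2⟩ : {q : M × ℝ // 0 ≤ q.2 ∧ q.2 ≤ r0})
  h3 t ht := by
    have := T.g3 hg ht.le
    simp only [XL_singleton g x₀] at this
    exact this.mono (fun i w hw => ⟨hw.1.1, hw.1.2, hw.2.2⟩) fun _ => le_rfl
  h4 s hs t hst := by
    have := T.g4 hg hs.le hst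
    simp only [XL_singleton g x₀] at this
    exact this
  h4' s hs t hst := by
    have := T.g4' hg hs.le hst
    simp only [XL_singleton g x₀] at this
    exact this

/-- Free loops. -/
theorem fibU_FL : FibU (fun w : ℝ →ᵇ M => w 0) (fun t => FL M t) (fun t => P x₀ x₀ t)
    (R + ℓ + (R + ℓ)) r0 (phi (fun x => x) R ℓ c) (psi (fun x => x) R ℓ c) :=
  T.fibU (g := fun x => x) fun _ _ => le_rfl

/-- Paths to a point. -/
theorem fibU_PF (b : M) : FibU (fun w : ℝ →ᵇ M => w 0) (fun t => H456.PF b t) (fun t => P x₀ b t)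
    (R + ℓ + (R + ℓ)) r0 (phi (fun _ => b) R ℓ c) (psi (fun _ => b) R ℓ c) :=
  T.fibU (g := fun _ => b) fun _ _ => by rw [dist_self]; exact dist_nonneg

end Tr0

/-! ### The reversal -/

theorem cg_rv {m : ℝ} {z : M} {p : ℝ → M} {w : ℝ →ᵇ M} (hm : 0 ≤ m) (ht : 0 ≤ t)
    (hp : Pt m (w 0) z p) (hw : w ∈ FL M t) :
    cg (fun x => x) m t p (rv t w) = rv (t + (m + m)) (cg (fun x => x) m t p w) := by
  have e0 : rv t w 0 = w 0 := rv_zero hw le_rfl
  have hg : ∀ x y : M, dist ((fun x => x) x) ((fun x => x) y) ≤ dist x y := fun _ _ => le_rfl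
  have hw' : rv t w ∈ XG (fun x : M => x) t := rv_mem_FL hw le_rfl
  have hw0 : w ∈ XG (fun x : M => x) t := hw
  have h1 : w t = p 0 := by rw [hp.zero]; exact hw.2.2 t le_rfl
  have h1' : rv t w t = p 0 := by rw [rv_apply, sub_self, hp.zero]
  ext u
  rw [rv_apply, cg_apply hg ht (by rw [e0]; exact hp) hw', cg_apply hg ht hp hw0]
  show c2 m t p p (rv t w) u = c2 m t p p w (t + (m + m) - u)
  rcases le_total u m with h | h
  · rw [c2_one h, c2_three hp.zero.symm ht h1 (by linarith)]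
    congr 1
    ring
  rcases le_total u (m + t) with h' | h'
  · rw [c2_two (by rw [e0, hp.zero]) h h', c2_two hp.zero.symm (by linarith) (by linarith),
      rv_apply]
    congr 1
    ring
  · rw [c2_three (by rw [e0, hp.zero]) ht h1' h', c2_one (by linarith)]
    congr 1
    ring

namespace Tr0

variable (T : Tr0 x₀ ρ R ℓ₀ D ℓ r0 c)
include T

/-- **(G5)** -/
theorem phi_rv (ht : 0 ≤ t) {w : ℝ →ᵇ M} (hw : w ∈ FL M t) (hx : dist x (w 0) ≤ r0) :
    phi (fun x => x) R ℓ c x t (rv t w) =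
      rv (t + (R + ℓ + (R + ℓ))) (phi (fun x => x) R ℓ c x t w) := by
  unfold phi
  rw [rv_zero hw le_rfl]
  exact cg_rv T.m_nonneg ht (T.pφ_pt le_rfl hx) hw

theorem psi_rv (ht : 0 ≤ t) {v : ℝ →ᵇ M} (hv : v ∈ P x₀ x₀ t) :
    psi (fun x => x) R ℓ c x t (rv t v) =
      rv (t + (R + ℓ + (R + ℓ))) (psi (fun x => x) R ℓ c x t v) := by
  have h : v 0 = x₀ := eq_left hv le_rfl
  exact cg_rv T.m_nonneg ht (by rw [h]; exact T.pψ_pt x) (P_subset_FL hv)

/-- The reversal, in the form of `FibU.opθ`. -/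
theorem uh_rv (ht : 0 ≤ t) : UH (fun x : M => nbc (fun w : ℝ →ᵇ M => w 0) (FL M t) x r0)
    (fun _ => P x₀ x₀ (t + (R + ℓ + (R + ℓ))))
    (fun x w => phi (fun x => x) R ℓ c x t (rv t w))
    fun x w => rv (t + (R + ℓ + (R + ℓ))) (phi (fun x => x) R ℓ c x t w) := by
  have h0 := T.g0 (g := fun x => x) (fun _ _ => le_rfl) ht
  simp only [XL_singleton] at h0
  have hr : UM (fun x : M => nbc (fun w : ℝ →ᵇ M => w 0) (FL M t) x r0)
      (fun x : M => nbc (fun w : ℝ →ᵇ M => w 0) (FL M t) x r0) fun _ => rv t := by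
    refine ⟨fun x w hw => ⟨rv_mem_FL hw.1 le_rfl, ?_⟩, fun ε hε => ⟨ε, hε,
      fun x w _ w' _ hd => (H754B.dist_rv_le t w w').trans_lt hd⟩⟩
    show dist x (rv t w 0) ≤ r0
    rw [rv_zero hw.1 le_rfl]
    exact hw.2
  exact (UH.refl (UM.comp h0 hr)).congr (fun x w hw => rfl) fun x w hw =>
    T.phi_rv ht hw.1 hw.2

end Tr0

end Vale.Agent.P216.H923E
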