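import Vale.Agent.P216.H923E.Inst

/-!
# P216-D, [E2]: the comparison `φ x₀ ~ id` on the fibre over `x₀`
-/

set_option linter.all false

open Set BoundedContinuousFunction

namespace Vale.Agent.P216.H923E

open Vale.Agent.P216.PS Vale.Agent.P216.MV337 Vale.Agent.P216.C337
open Vale.Agent.P216.Sl (IsPi)

variable {M : Type} [MetricSpace M] {ρ R : ℝ} {a x y : M} [CompactSpace M]
variable {g : M → M} {x₀ : M} {ℓ₀ D ℓ r0 t s : ℝ} {c : M → ℝ → M}

namespace Tr0

variable (T : Tr0 x₀ ρ R ℓ₀ D ℓ r0 c)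
include T

/-- `φ x₀` is homotopic to the inclusion on the fibre over `x₀`. -/
theorem hx' (hg : ∀ x y, dist (g x) (g y) ≤ dist x y) (ht : 0 ≤ t) :
    UH (fun _ : Unit => P x₀ (g x₀) t) (fun _ => P x₀ (g x₀) (t + (R + ℓ + (R + ℓ))))
      (fun _ => id) fun _ => phi g R ℓ c x₀ t := by
  have hm := T.m_nonneg
  have hR := T.hR
  have hℓ₀ := T.hℓ₀
  have hx0 : x₀ ∈ NB x₀ r0 := by
    show dist x₀ x₀ ≤ r0
    rw [dist_self]
    exact T.hr0.le
  have h1 : Pt (R + ℓ₀) x₀ x₀ fun _ => x₀ := pt_const _ _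
  have h2 : Pt (R + ℓ₀) x₀ x₀ (pφ R c x₀ x₀) := (T.sgp le_rfl hx0).cat (T.hc _) hR.le hℓ₀
  have hj := T.hD.join x₀ x₀ (R + ℓ₀) (by linarith) _ h1.mo _ h2.mo
  have H1 := uh_shift (D := fun _ : Unit => {x₀}) hg hm ht
  have H2 := uh_conj (m := R + ℓ) (D := fun _ : Unit => {x₀}) (V := fun _ => {x₀}) hg hm ht
    (fun _ σ _ => (hj.somePath.extend σ : ℝ →ᵇ M))
    (fun _ σ hσ a ha => ⟨x₀, rfl, by
      have ha' : a = x₀ := ha
      rw [ha']
      exact (Pt.of_P (hj.somePath_mem (projIcc 0 1 zero_le_one σ))).le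
        (by linarith [T.hℓ])⟩)
    (fun ε hε => ⟨1, one_pos, fun _ σ _ a _ a' _ _ u => by rw [dist_self]; exact hε.le⟩)
    (fun _ ε hε => ?_)
  · have := H1.trans (H2.congr (f' := fun _ w => cg g (R + ℓ) t (fun _ => w 0) w)
      (g' := fun _ => phi g R ℓ c x₀ t) (fun _ w hw => ?_) fun _ w hw => ?_)
    · simpa only [XL_singleton] using this
    · have h0 : w 0 = x₀ := hw.2
      show cg g _ t ((hj.somePath.extend 0 : ℝ →ᵇ M) : ℝ → M) w = cg g _ t (fun _ => w 0) w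
      rw [hj.somePath.extend_zero, h0]
      congr 1
      funext u
      exact h1.1.mo_apply u
    · have h0 : w 0 = x₀ := hw.2
      show cg g _ t ((hj.somePath.extend 1 : ℝ →ᵇ M) : ℝ → M) w = cg g _ t (pφ R c x₀ (w 0)) w
      rw [hj.somePath.extend_one, h0]
      congr 1
      funext u
      exact h2.1.mo_apply u
  · have hu := isCompact_Icc.uniformContinuousOn_of_continuous (s := Icc (0:ℝ) 1)
      hj.somePath.continuous_extend.continuousOn
    rw [Metric.uniformContinuousOn_iff] at hu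
    obtain ⟨δ, hδ, h⟩ := hu ε hε
    exact ⟨δ, hδ, fun σ hσ σ' hσ' hd a ha u =>
      (BoundedContinuousFunction.dist_coe_le_dist _).trans (h σ hσ σ' hσ' hd).le⟩

/-- For free loops. -/
theorem hx_FL : ∀ t > 0, UH (fun _ : Unit => P x₀ x₀ t)
    (fun _ => P x₀ x₀ (t + (R + ℓ + (R + ℓ)))) (fun _ => id)
    fun _ => phi (fun x => x) R ℓ c x₀ t := fun _ ht =>
  T.hx' (g := fun x => x) (fun _ _ => le_rfl) (le_of_lt ht)

/-- For paths to `b`. -/
theorem hx_PF (b : M) : ∀ t > 0, UH (fun _ : Unit => P x₀ b t)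
    (fun _ => P x₀ b (t + (R + ℓ + (R + ℓ)))) (fun _ => id)
    fun _ => phi (fun _ => b) R ℓ c x₀ t := fun _ ht =>
  T.hx' (g := fun _ => b) (fun _ _ => by rw [dist_self]; exact dist_nonneg) (le_of_lt ht)

end Tr0

end Vale.Agent.P216.H923E
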