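import Vale.Agent.P216.H550.Hp
import Vale.Agent.P216.C337.Cell
import Vale.Agent.P216.H250.Pi0P
import Vale.Agent.P216.H787.Bfbp

/-!
# P216-D, [E2], the fibre step

`XL g L t`: Moore-Lipschitz paths `w` of time `t` with `w 0 ∈ L`, `w t = g (w 0)` (`g = id`: free
loops, `g = const b`: paths to `b`).  For tracks `S`, `R` over `L` (from `y` to `x₀`, from `g y` to
`b`, time `ℓ`):

* `fw t : XL g L t → P x₀ b (t + 2 ℓ)`, conjugation to `x₀`;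
* `bk t (y, v)`, `y ∈ L`, `v ∈ P x₀ b t`: conjugation back to `y`.

All the homotopies between them.
-/

set_option linter.all false

open Set Filter Topology BoundedContinuousFunction

namespace Vale.Agent.P216.H923E

open Vale.Agent.P216.PS Vale.Agent.P216.MV337 Vale.Agent.P216.C337
open Vale.Agent.P216.AS (IsMap IsHtpy)
open Vale.Agent.P216.H901 (Hp tr ovr)
open Vale.Agent.P216.H550 (hp_trans hp_symm hp_mono hp_comp_left hp_comp_right)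

section

variable {M : Type} [MetricSpace M]

/-- Paths `w` of time `t` which start in `L`, with `w t = g (w 0)`. -/
def XL (g : M → M) (L : Set M) (t : ℝ) : Set (ℝ →ᵇ M) := {w | w ∈ XG g t ∧ w 0 ∈ L}

theorem XL_eq (g : M → M) (L : Set M) (t : ℝ) : XL g L t = ovr evz (XG g) L t := rfl

variable {g : M → M} {x₀ b : M} {ℓ t s : ℝ} {L L' : Set M}

theorem XL_mono (hL : L ⊆ L') (h : s ≤ t) : XL g L s ⊆ XL g L' t := fun _ hw =>
  ⟨XG_mono h hw.1, hL hw.2⟩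

theorem toPY {w : ℝ →ᵇ M} (hw : w ∈ XL g L t) : (w 0, w) ∈ PY id g L t := ⟨hw.2, hw.1⟩

theorem ofPY {p : M × (ℝ →ᵇ M)} (hp : p ∈ PY id g L t) : p.2 0 = p.1 ∧ p.2 ∈ XL g L t := by
  have h0 : p.2 0 = p.1 := eq_left hp.2 le_rfl
  refine ⟨h0, ?_, ?_⟩
  · show p.2 ∈ P (p.2 0) (g (p.2 0)) t
    rw [h0]
    exact hp.2
  · rw [h0]
    exact hp.1

/-- Tracks of time `ℓ` from the points of `L` to `x₀` and from their images to `b`. -/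
structure Tk (g : M → M) (x₀ b : M) (ℓ : ℝ) (L : Set M) (S R : M → ℝ → M) : Prop where
  hS : TrY L id (fun _ => x₀) ℓ S
  hR : TrY L g (fun _ => b) ℓ R

theorem Tk.mono {S R : M → ℝ → M} (T : Tk g x₀ b ℓ L' S R) (h : L ⊆ L') : Tk g x₀ b ℓ L S R :=
  ⟨T.hS.mono h, T.hR.mono h⟩

theorem Tk.le {S R : M → ℝ → M} {ℓ' : ℝ} (T : Tk g x₀ b ℓ L S R) (h : ℓ ≤ ℓ') :
    Tk g x₀ b ℓ' L S R := ⟨T.hS.le h, T.hR.le h⟩

theorem Tk.nonneg {S R : M → ℝ → M} (T : Tk g x₀ b ℓ L S R) : 0 ≤ ℓ := T.hS.nonneg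

/-- the embedding `w ↦ (w 0, w)` -/
def emb (w : ℝ →ᵇ M) : M × (ℝ →ᵇ M) := (w 0, w)

theorem continuous_emb : Continuous (emb (M := M)) := by
  unfold emb
  fun_prop

end

variable {M : Type} [MetricSpace M] [CompactSpace M] {g : M → M} {x₀ b : M} {ℓ t s : ℝ}
  {L L' L₂ : Set M} {S R S' R' : M → ℝ → M}

theorem isCompact_XL (hg : Continuous g) (hL : IsClosed L) (ht : 0 ≤ t) : IsCompact (XL g L t) :=
  isCompact_ovrXG hg hL ht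

theorem isMap_emb (hg : Continuous g) (hL : IsClosed L) (ht : 0 ≤ t) :
    IsMap (tr (ℝ →ᵇ M)) (tr (M × (ℝ →ᵇ M))) (XL g L t) (PY id g L t) emb :=
  map_of_cont (isCompact_XL hg hL ht) continuous_emb.continuousOn fun _ hw => toPY hw

theorem isMap_snd (hg : Continuous g) (hL : IsClosed L) (ht : 0 ≤ t) :
    IsMap (tr (M × (ℝ →ᵇ M))) (tr (ℝ →ᵇ M)) (PY id g L t) (XL g L t) Prod.snd :=
  map_of_cont (isCompact_PY hL.isCompact continuousOn_id hg.continuousOn ht) continuousOn_snd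
    fun _ hp => (ofPY hp).2

/-- conjugation to `x₀` -/
noncomputable def fw (ℓ : ℝ) (S R : M → ℝ → M) (t : ℝ) (w : ℝ →ᵇ M) : ℝ →ᵇ M :=
  (tw ℓ t S R (w 0, w)).2

/-- conjugation back to `p.1` -/
noncomputable def bk (ℓ : ℝ) (S R : M → ℝ → M) (t : ℝ) (p : M × (ℝ →ᵇ M)) : ℝ →ᵇ M :=
  (tw ℓ t (rv ℓ S) (rv ℓ R) p).2

namespace Tk

theorem fw_mem (T : Tk g x₀ b ℓ L S R) (ht : 0 ≤ t) {w : ℝ →ᵇ M} (hw : w ∈ XL g L t) :
    fw ℓ S R t w ∈ P x₀ b (t + (ℓ + ℓ)) :=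
  (tw_mem (A := univ) T.hS T.hR ht (mem_univ _) (toPY hw)).2

theorem bk_mem (T : Tk g x₀ b ℓ L S R) (ht : 0 ≤ t) {p : M × (ℝ →ᵇ M)} (h1 : p.1 ∈ L)
    (h2 : p.2 ∈ P x₀ b t) : bk ℓ S R t p ∈ XG g (t + (ℓ + ℓ)) ∧ bk ℓ S R t p 0 = p.1 := by
  have h : tw ℓ t (rv ℓ S) (rv ℓ R) p ∈ PY id g L (t + (ℓ + ℓ)) :=
    tw_mem (A := L) T.hS.rv_ T.hR.rv_ ht h1 ⟨h1, h2⟩
  exact ⟨(ofPY h).2.1, (ofPY h).1⟩

theorem bk_mem' (T : Tk g x₀ b ℓ L S R) (ht : 0 ≤ t) {p : M × (ℝ →ᵇ M)} (h1 : p.1 ∈ L)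
    (h2 : p.2 ∈ P x₀ b t) (h3 : p.1 ∈ L') : bk ℓ S R t p ∈ XL g L' (t + (ℓ + ℓ)) :=
  ⟨(T.bk_mem ht h1 h2).1, by rw [(T.bk_mem ht h1 h2).2]; exact h3⟩

/-- joint continuity of `fw` -/
theorem continuousOn_fw' (T : Tk g x₀ b ℓ L S R) {Z : Type*} [TopologicalSpace Z] {B : Set Z}
    {W : Z → ℝ →ᵇ M} {τ : Z → ℝ} {C : ℝ} (hW : ContinuousOn W B) (hτ : ContinuousOn τ B)
    (h0 : ∀ z ∈ B, 0 ≤ τ z) (hC : ∀ z ∈ B, τ z ≤ C) (hm : ∀ z ∈ B, W z ∈ XL g L (τ z)) :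
    ContinuousOn (fun z => fw ℓ S R (τ z) (W z)) B :=
  continuous_snd.comp_continuousOn (continuousOn_tw' T.hS T.hR (F := fun z => (W z 0, W z))
    ((continuousOn_eval hW continuousOn_const).prodMk hW) hτ h0 hC fun z hz => toPY (hm z hz))

/-- joint continuity of `bk` -/
theorem continuousOn_bk' (T : Tk g x₀ b ℓ L S R) {Z : Type*} [TopologicalSpace Z] {B : Set Z}
    {F : Z → M × (ℝ →ᵇ M)} {τ : Z → ℝ} {C : ℝ} (hF : ContinuousOn F B) (hτ : ContinuousOn τ B)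
    (h0 : ∀ z ∈ B, 0 ≤ τ z) (hC : ∀ z ∈ B, τ z ≤ C) (h1 : ∀ z ∈ B, (F z).1 ∈ L)
    (h2 : ∀ z ∈ B, (F z).2 ∈ P x₀ b (τ z)) :
    ContinuousOn (fun z => bk ℓ S R (τ z) (F z)) B :=
  continuous_snd.comp_continuousOn (continuousOn_tw' T.hS.rv_ T.hR.rv_ hF hτ h0 hC
    fun z hz => ⟨h1 z hz, h2 z hz⟩)

theorem isMap_fw (T : Tk g x₀ b ℓ L S R) (hg : Continuous g) (hL : IsClosed L) (ht : 0 ≤ t) :
    IsMap (tr (ℝ →ᵇ M)) (tr (ℝ →ᵇ M)) (XL g L t) (P x₀ b (t + (ℓ + ℓ))) (fw ℓ S R t) :=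
  map_of_cont (isCompact_XL hg hL ht) (T.continuousOn_fw' (C := t) (W := fun w => w)
    (τ := fun _ => t) continuousOn_id continuousOn_const (fun _ _ => ht) (fun _ _ => le_rfl)
    fun _ h => h) fun _ hw => T.fw_mem ht hw

theorem isMap_bk (T : Tk g x₀ b ℓ L S R) (ht : 0 ≤ t) {y : M} (hy : y ∈ L) (hy' : y ∈ L') :
    IsMap (tr (ℝ →ᵇ M)) (tr (ℝ →ᵇ M)) (P x₀ b t) (XL g L' (t + (ℓ + ℓ)))
      (fun v => bk ℓ S R t (y, v)) :=
  map_of_cont (isCompact_P _ _ _) (T.continuousOn_bk' (C := t) (F := fun v => (y, v))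
    (τ := fun _ => t) (continuousOn_const.prodMk continuousOn_id) continuousOn_const
    (fun _ _ => ht) (fun _ _ => le_rfl) (fun _ _ => hy) fun _ h => h)
    fun v hv => T.bk_mem' (p := (y, v)) ht hy hv hy'

/-- naturality of `fw` in the level -/
theorem fw_nat (T : Tk g x₀ b ℓ L S R) (hg : Continuous g) (hL : IsClosed L) (hs : 0 ≤ s)
    (hst : s ≤ t) : Hp (XL g L s) ∅ (P x₀ b (t + (ℓ + ℓ))) ∅ (fw ℓ S R s) (fw ℓ S R t) := by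
  have hσ : ∀ z ∈ Icc (0:ℝ) 1 ×ˢ XL g L s, s ≤ s + z.1 * (t - s) ∧ s + z.1 * (t - s) ≤ t :=
    fun z hz => tm_aux' hst hz.1
  refine MV337.hp_of_cont (isCompact_XL hg hL hs)
    (F := fun z => fw ℓ S R (s + z.1 * (t - s)) z.2) ?_ ?_ (fun _ _ _ h => h.elim) ?_ ?_
  · exact T.continuousOn_fw' (C := t) (W := fun z => z.2) (τ := fun z => s + z.1 * (t - s))
      continuousOn_snd (by fun_prop)
      (fun z hz => hs.trans (hσ z hz).1) (fun z hz => (hσ z hz).2)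
      fun z hz => XL_mono le_rfl (hσ z hz).1 hz.2
  · intro σ h w hw
    have h2 := hσ (σ, w) ⟨h, hw⟩
    exact P_mono (by linarith [h2.2]) (T.fw_mem (hs.trans h2.1) (XL_mono le_rfl h2.1 hw))
  · intro w _
    show fw ℓ S R (s + 0 * (t - s)) w = _
    rw [zero_mul, add_zero]
  · intro w _
    show fw ℓ S R (s + 1 * (t - s)) w = _
    rw [one_mul, add_sub_cancel]

/-- naturality of `bk` in the level -/
theorem bk_nat (T : Tk g x₀ b ℓ L S R) (hs : 0 ≤ s) (hst : s ≤ t) {y : M} (hy : y ∈ L)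
    (hy' : y ∈ L') : Hp (P x₀ b s) ∅ (XL g L' (t + (ℓ + ℓ))) ∅ (fun v => bk ℓ S R s (y, v))
      (fun v => bk ℓ S R t (y, v)) := by
  have hσ : ∀ z ∈ Icc (0:ℝ) 1 ×ˢ P x₀ b s, s ≤ s + z.1 * (t - s) ∧ s + z.1 * (t - s) ≤ t :=
    fun z hz => tm_aux' hst hz.1
  refine MV337.hp_of_cont (isCompact_P _ _ _)
    (F := fun z => bk ℓ S R (s + z.1 * (t - s)) (y, z.2)) ?_ ?_ (fun _ _ _ h => h.elim) ?_ ?_
  · exact T.continuousOn_bk' (C := t) (F := fun z : ℝ × (ℝ →ᵇ M) => (y, z.2))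
      (τ := fun z => s + z.1 * (t - s)) (continuousOn_const.prodMk continuousOn_snd) (by fun_prop)
      (fun z hz => hs.trans (hσ z hz).1) (fun z hz => (hσ z hz).2)
      (fun _ _ => hy) fun z hz => P_mono (hσ z hz).1 hz.2
  · intro σ h v hv
    have h2 := hσ (σ, v) ⟨h, hv⟩
    exact XL_mono le_rfl (by linarith [h2.2])
      (T.bk_mem' (p := (y, v)) (hs.trans h2.1) hy (P_mono h2.1 hv) hy')
  · intro w _
    show bk ℓ S R (s + 0 * (t - s)) (y, w) = _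
    rw [zero_mul, add_zero]
  · intro w _
    show bk ℓ S R (s + 1 * (t - s)) (y, w) = _
    rw [one_mul, add_sub_cancel]

/-- **(F1)** -/
theorem fw_bk (T : Tk g x₀ b ℓ L S R) (ht : 0 < t) {y : M} (hy : y ∈ L) :
    Hp (P x₀ b t) ∅ (P x₀ b (t + (ℓ + ℓ) + (ℓ + ℓ))) ∅ id
      (fun v => fw ℓ S R (t + (ℓ + ℓ)) (bk ℓ S R t (y, v))) := by
  have T' : Tk g x₀ b ℓ {y} S R := T.mono (singleton_subset_iff.2 hy)
  have h := hp_gf (L := {y}) (A := ∅) isCompact_singleton (f := fun _ => x₀) (g := fun _ => b)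
    continuousOn_const continuousOn_const (empty_subset _) T'.hS.rv_ T'.hR.rv_ ht
  rw [rv_rv, rv_rv] at h
  have e1 : IsMap (tr (ℝ →ᵇ M)) (tr (M × (ℝ →ᵇ M))) (P x₀ b t)
      (PY (fun _ => x₀) (fun _ => b) {y} t) (fun v => (y, v)) :=
    map_of_cont (isCompact_P _ _ _) (continuousOn_const.prodMk continuousOn_id)
      fun v hv => ⟨rfl, hv⟩
  have e2 : IsMap (tr (M × (ℝ →ᵇ M))) (tr (ℝ →ᵇ M)) (PY (fun _ => x₀) (fun _ => b) {y}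
      (t + (ℓ + ℓ) + (ℓ + ℓ))) (P x₀ b (t + (ℓ + ℓ) + (ℓ + ℓ))) Prod.snd :=
    map_of_cont (isCompact_PY isCompact_singleton continuousOn_const continuousOn_const
      (by linarith [T.nonneg])) continuousOn_snd fun p hp => hp.2
  refine hp_congr (h.comp_right e1 (fun _ h => h.elim) |>.comp_left e2 (B' := PY (fun _ => x₀)
    (fun _ => b) ∅ (t + (ℓ + ℓ) + (ℓ + ℓ))) (C' := ∅) fun p hp => hp.1.elim) (fun v _ => rfl) fun v hv => ?_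
  show (tw ℓ (t + (ℓ + ℓ)) S R (tw ℓ t (rv ℓ S) (rv ℓ R) (y, v))).2 = fw ℓ S R (t + (ℓ + ℓ)) _
  have h0 := (T.bk_mem (p := (y, v)) ht.le hy hv).2
  unfold fw
  rw [h0]
  rfl

/-- **(F2)**, first part. -/
theorem bk_fw_self (T : Tk g x₀ b ℓ L S R) (hg : Continuous g) (hL : IsClosed L) (ht : 0 < t) :
    Hp (XL g L t) ∅ (XL g L (t + (ℓ + ℓ) + (ℓ + ℓ))) ∅ id
      (fun w => bk ℓ S R (t + (ℓ + ℓ)) (w 0, fw ℓ S R t w)) := by
  have h := hp_gf (L := L) (A := ∅) hL.isCompact continuousOn_id hg.continuousOn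
    (empty_subset _) T.hS T.hR ht
  exact hp_congr (h.comp_right (isMap_emb hg hL ht.le) (fun _ h => h.elim) |>.comp_left
    (isMap_snd hg hL (by linarith [T.nonneg])) (C' := ∅) fun p hp => hp.1.elim)
    (fun v _ => rfl) fun v hv => rfl

/-- **(F2)**: `κ` contracts `L` inside `L₂` to `y`. -/
theorem bk_fw (T : Tk g x₀ b ℓ L₂ S R) (hg : Continuous g) (hL : IsClosed L) (hLL : L ⊆ L₂)
    (ht : 0 < t) {y : M} {κ : ℝ × M → M} (hκ : ContinuousOn κ (Icc (0:ℝ) 1 ×ˢ L))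
    (hκm : ∀ σ ∈ Icc (0:ℝ) 1, ∀ x ∈ L, κ (σ, x) ∈ L₂) (h0 : ∀ x ∈ L, κ (0, x) = x)
    (h1 : ∀ x ∈ L, κ (1, x) = y) :
    Hp (XL g L t) ∅ (XL g L₂ (t + (ℓ + ℓ) + (ℓ + ℓ))) ∅ id
      (fun w => bk ℓ S R (t + (ℓ + ℓ)) (y, fw ℓ S R t w)) := by
  have T' := T.mono hLL
  have hℓ := T.nonneg
  refine hp_trans (hp_mono (T'.bk_fw_self hg hL ht) le_rfl le_rfl (XL_mono hLL le_rfl) le_rfl) ?_
  refine MV337.hp_of_cont (isCompact_XL hg hL ht.le)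
    (F := fun z => bk ℓ S R (t + (ℓ + ℓ)) (κ (z.1, z.2 0), fw ℓ S R t z.2)) ?_ ?_
    (fun _ _ _ h => h.elim) ?_ ?_
  · refine T.continuousOn_bk' (C := t + (ℓ + ℓ)) (τ := fun _ => t + (ℓ + ℓ))
      (F := fun z : ℝ × (ℝ →ᵇ M) => (κ (z.1, z.2 0), fw ℓ S R t z.2))
      (ContinuousOn.prodMk ?_ ?_) continuousOn_const (fun _ _ => by linarith)
      (fun _ _ => le_rfl) (fun z hz => hκm _ hz.1 _ hz.2.2) fun z hz => T'.fw_mem ht.le hz.2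
    · exact hκ.comp (continuousOn_fst.prodMk (continuousOn_eval continuousOn_snd
        continuousOn_const)) fun z hz => ⟨hz.1, hz.2.2⟩
    · exact T'.continuousOn_fw' (C := t) (Z := ℝ × (ℝ →ᵇ M)) (W := fun z => z.2)
        (τ := fun _ => t) continuousOn_snd
        continuousOn_const (fun _ _ => ht.le) (fun _ _ => le_rfl) fun z hz => hz.2
  · intro σ hσ w hw
    exact T.bk_mem' (p := (κ (σ, w 0), fw ℓ S R t w)) (by linarith) (hκm _ hσ _ hw.2)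
      (T'.fw_mem ht.le hw) (hκm _ hσ _ hw.2)
  · intro w hw
    show bk ℓ S R _ (κ (0, w 0), _) = _
    rw [h0 _ hw.2]
  · intro w hw
    show bk ℓ S R _ (κ (1, w 0), _) = _
    rw [h1 _ hw.2]

/-- **(F3)**, moving the point. -/
theorem bk_move (T : Tk g x₀ b ℓ L S R) (ht : 0 ≤ t) {c : ℝ → M}
    (hc : ContinuousOn c (Icc (0:ℝ) 1)) (hcL : ∀ σ ∈ Icc (0:ℝ) 1, c σ ∈ L ∧ c σ ∈ L') :
    Hp (P x₀ b t) ∅ (XL g L' (t + (ℓ + ℓ))) ∅ (fun v => bk ℓ S R t (c 0, v))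
      (fun v => bk ℓ S R t (c 1, v)) := by
  refine MV337.hp_of_cont (isCompact_P _ _ _) (F := fun z => bk ℓ S R t (c z.1, z.2)) ?_ ?_
    (fun _ _ _ h => h.elim) (fun _ _ => rfl) (fun _ _ => rfl)
  · exact T.continuousOn_bk' (C := t) (τ := fun _ => t)
      (F := fun z : ℝ × (ℝ →ᵇ M) => (c z.1, z.2))
      ((hc.comp continuousOn_fst fun z hz => hz.1).prodMk continuousOn_snd) continuousOn_const
      (fun _ _ => ht) (fun _ _ => le_rfl) (fun z hz => (hcL _ hz.1).1) fun z hz => hz.2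
  · exact fun σ hσ v hv => T.bk_mem' (p := (c σ, v)) ht (hcL σ hσ).1 hv (hcL σ hσ).2

end Tk

/-- conjugation by paths `u`, `u'` from `y` to `x₀` and from `g y` to `b` -/
noncomputable def cj (ℓ t : ℝ) (u u' v : ℝ →ᵇ M) : ℝ →ᵇ M :=
  mo (c2 ℓ t (fun r => u (ℓ - r)) (fun r => u' (ℓ - r)) v)

theorem lip_rvu {u : ℝ →ᵇ M} {y y' : M} (hu : u ∈ P y y' ℓ) : Lip fun r => u (ℓ - r) := by
  intro r r'
  have := hu.1 (ℓ - r) (ℓ - r')
  refine this.trans (le_of_eq ?_)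
  rw [show ℓ - r - (ℓ - r') = -(r - r') by ring, abs_neg]

theorem cj_mem (hℓ : 0 ≤ ℓ) (ht : 0 ≤ t) {y : M} {u u' v : ℝ →ᵇ M} (hu : u ∈ P y x₀ ℓ)
    (hu' : u' ∈ P (g y) b ℓ) (hv : v ∈ P x₀ b t) :
    cj ℓ t u u' v ∈ P y (g y) (t + (ℓ + ℓ)) := by
  refine mo_c2_mem (lip_rvu hu) (lip_rvu hu') hv.1 ht hℓ hℓ ?_ ?_ ?_ ?_
  · show v 0 = u (ℓ - 0)
    rw [sub_zero, eq_left hv le_rfl, eq_right hu le_rfl]
  · show v t = u' (ℓ - 0)
    rw [sub_zero, eq_right hv le_rfl, eq_right hu' le_rfl]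
  · exact fun r hr => eq_left hu (by linarith)
  · exact fun r hr => eq_left hu' (by linarith)

theorem cj_mem_XL (hℓ : 0 ≤ ℓ) (ht : 0 ≤ t) {y : M} (hy : y ∈ L) {u u' v : ℝ →ᵇ M}
    (hu : u ∈ P y x₀ ℓ) (hu' : u' ∈ P (g y) b ℓ) (hv : v ∈ P x₀ b t) :
    cj ℓ t u u' v ∈ XL g L (t + (ℓ + ℓ)) := by
  have h := cj_mem hℓ ht hu hu' hv
  have h0 : cj ℓ t u u' v 0 = y := eq_left h le_rfl
  refine ⟨?_, ?_⟩
  · show _ ∈ P (cj ℓ t u u' v 0) (g (cj ℓ t u u' v 0)) _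
    rw [h0]
    exact h
  · rw [h0]
    exact hy

/-- **(F3)**, changing the tracks at a point. -/
theorem cj_hp (hℓ : 0 ≤ ℓ) (ht : 0 ≤ t) {y : M} (hy : y ∈ L) {u₀ u₁ u₀' u₁' : ℝ →ᵇ M}
    (h : JoinedIn (P y x₀ ℓ) u₀ u₁) (h' : JoinedIn (P (g y) b ℓ) u₀' u₁') :
    Hp (P x₀ b t) ∅ (XL g L (t + (ℓ + ℓ))) ∅ (cj ℓ t u₀ u₀') (cj ℓ t u₁ u₁') := by
  obtain ⟨γ, hγ⟩ := h
  obtain ⟨γ', hγ'⟩ := h'
  have m : ∀ σ, γ.extend σ ∈ P y x₀ ℓ := fun σ => hγ (projIcc 0 1 zero_le_one σ)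
  have m' : ∀ σ, γ'.extend σ ∈ P (g y) b ℓ := fun σ => hγ' (projIcc 0 1 zero_le_one σ)
  have hc : ContinuousOn (fun z : ℝ × (ℝ →ᵇ M) => cj ℓ t (γ.extend z.1) (γ'.extend z.1) z.2)
      (Icc (0:ℝ) 1 ×ˢ P x₀ b t) := by
    have hh := continuousOn_mo_c2 (Z := ℝ × (ℝ →ᵇ M)) (B := Icc (0:ℝ) 1 ×ˢ P x₀ b t)
      (X := fun z => z.1) (W := fun z => z.2) (τ := fun _ => t) (μ := fun _ => ℓ)
      (Pf := fun z r => γ.extend z.1 (ℓ - r)) (Qf := fun z r => γ'.extend z.1 (ℓ - r))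
      (C := t + (ℓ + ℓ)) continuousOn_fst continuousOn_snd continuousOn_const continuousOn_const
      (fun φ hφ => continuousOn_eval (γ.continuous_extend.comp_continuousOn continuousOn_fst)
        (continuousOn_const.sub hφ))
      (fun φ hφ => continuousOn_eval (γ'.continuous_extend.comp_continuousOn continuousOn_fst)
        (continuousOn_const.sub hφ))
      (fun _ _ => ht)
      (fun z hz => by
        show z.2 0 = γ.extend z.1 (ℓ - 0)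
        rw [sub_zero, eq_left hz.2 le_rfl, eq_right (m z.1) le_rfl])
      (fun z hz => by
        show z.2 t = γ'.extend z.1 (ℓ - 0)
        rw [sub_zero, eq_right hz.2 le_rfl, eq_right (m' z.1) le_rfl])
      (fun z hz => lip_rvu (m z.1)) (fun z hz => lip_rvu (m' z.1)) (fun z hz => hz.2.1)
      (by linarith) fun z hz => P_subset_PP (cj_mem hℓ ht (m z.1) (m' z.1) hz.2)
    exact continuous_snd.comp_continuousOn hh
  refine MV337.hp_of_cont (isCompact_P _ _ _) (F := fun z => cj ℓ t (γ.extend z.1)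
    (γ'.extend z.1) z.2) hc (fun σ hσ v hv => cj_mem_XL hℓ ht hy (m σ) (m' σ) hv)
    (fun _ _ _ h => h.elim) (fun v _ => ?_) (fun v _ => ?_)
  · show cj ℓ t (γ.extend 0) (γ'.extend 0) v = _
    rw [γ.extend_zero, γ'.extend_zero]
  · show cj ℓ t (γ.extend 1) (γ'.extend 1) v = _
    rw [γ.extend_one, γ'.extend_one]

theorem Tk.mo_S (T : Tk g x₀ b ℓ L S R) {y : M} (hy : y ∈ L) :
    (∀ r, mo (S y) r = S y r) ∧ mo (S y) ∈ P y x₀ ℓ :=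
  ⟨fun r => (T.hS.lip y hy).mo_apply r,
    mo_mem (T.hS.lip y hy) (T.hS.left y hy) (T.hS.right y hy)⟩

theorem Tk.mo_R (T : Tk g x₀ b ℓ L S R) {y : M} (hy : y ∈ L) :
    (∀ r, mo (R y) r = R y r) ∧ mo (R y) ∈ P (g y) b ℓ :=
  ⟨fun r => (T.hR.lip y hy).mo_apply r,
    mo_mem (T.hR.lip y hy) (T.hR.left y hy) (T.hR.right y hy)⟩

theorem Tk.bk_eq (T : Tk g x₀ b ℓ L S R) {y : M} (hy : y ∈ L) (v : ℝ →ᵇ M) :
    bk ℓ S R t (y, v) = cj ℓ t (mo (S y)) (mo (R y)) v := by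
  show mo (c2 ℓ t (rv ℓ S y) (rv ℓ R y) v) = _
  unfold cj
  congr 2
  · funext r
    exact ((T.mo_S hy).1 _).symm
  · funext r
    exact ((T.mo_R hy).1 _).symm

/-- **(F3)** -/
theorem bk_bk (T : Tk g x₀ b ℓ L S R) (T' : Tk g x₀ b ℓ L' S' R') (ht : 0 ≤ t) {c : ℝ → M}
    (hc : ContinuousOn c (Icc (0:ℝ) 1)) (hcL : ∀ σ ∈ Icc (0:ℝ) 1, c σ ∈ L) (h1 : c 1 ∈ L')
    (hj : JoinedIn (P (c 1) x₀ ℓ) (mo (S (c 1))) (mo (S' (c 1))))
    (hj' : JoinedIn (P (g (c 1)) b ℓ) (mo (R (c 1))) (mo (R' (c 1)))) :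
    Hp (P x₀ b t) ∅ (XL g L (t + (ℓ + ℓ))) ∅ (fun v => bk ℓ S R t (c 0, v))
      (fun v => bk ℓ S' R' t (c 1, v)) := by
  have m1 : (1:ℝ) ∈ Icc (0:ℝ) 1 := ⟨zero_le_one, le_rfl⟩
  refine hp_trans (T.bk_move ht hc fun σ hσ => ⟨hcL σ hσ, hcL σ hσ⟩) ?_
  exact hp_congr (cj_hp T.nonneg ht (hcL 1 m1) hj hj') (fun v _ => (T.bk_eq (hcL 1 m1) v).symm)
    fun v _ => (T'.bk_eq h1 v).symm

end Vale.Agent.P216.H923E
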