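import Vale.Agent.P216.H923E.UH
import Vale.Agent.P216.H923E.Fib

/-!
# P216-D, [E2]: calculus of conjugations

`g` is a map with `dist (g x) (g y) ≤ dist x y` (`id` or constant).  For a path `p` which starts at
`w 0`, `cg g m t p w = p⁻¹ w (g ∘ p)`, `w ∈ XG g t`.  Homotopies of path families `p i a`,
`a ∈ D i`, give uniform homotopies (`UH`) of the conjugations.
-/

set_option linter.all false

open Set BoundedContinuousFunction

namespace Vale.Agent.P216.H923E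

open Vale.Agent.P216.PS Vale.Agent.P216.MV337 Vale.Agent.P216.C337

section

variable {M : Type} [MetricSpace M]

/-- `p` is a path of time `m` from `a` to `z` -/
def Pt (m : ℝ) (a z : M) (p : ℝ → M) : Prop :=
  Lip p ∧ (∀ u ≤ 0, p u = a) ∧ ∀ u, m ≤ u → p u = z

variable {m m' t s : ℝ} {a z z' : M} {p q p' q' w w' : ℝ → M} {g : M → M} {D V : Set M}

theorem Pt.zero (h : Pt m a z p) : p 0 = a := h.2.1 0 le_rfl

theorem Pt.le (h : Pt m a z p) (hm : m ≤ m') : Pt m' a z p :=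
  ⟨h.1, h.2.1, fun u hu => h.2.2 u (hm.trans hu)⟩

theorem pt_const (m : ℝ) (a : M) : Pt m a a fun _ => a := ⟨lip_const a, fun _ _ => rfl, fun _ _ => rfl⟩

theorem Pt.cat (h : Pt m a z p) (h' : Pt m' z z' q) (hm : 0 ≤ m) (hm' : 0 ≤ m') :
    Pt (m + m') a z' (catf m p q) := by
  have e : p m = q 0 := by rw [h.2.2 m le_rfl, h'.zero]
  refine ⟨lip_catf h.1 h'.1 e, fun u hu => ?_, fun u hu => ?_⟩
  · rw [catf_left (hu.trans hm), h.2.1 u hu]
  · rw [catf_right e (by linarith), h'.2.2 _ (by linarith)]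

theorem Pt.rev (h : Pt m a z p) : Pt m z a fun u => p (m - u) := by
  refine ⟨h.1.comp fun u v => ?_, fun u hu => h.2.2 _ (by linarith),
    fun u hu => h.2.1 _ (by linarith)⟩
  rw [show m - u - (m - v) = -(u - v) by ring, abs_neg]

theorem Pt.map (hg : ∀ x y, dist (g x) (g y) ≤ dist x y) (h : Pt m a z p) :
    Pt m (g a) (g z) (g ∘ p) :=
  ⟨fun u v => (hg _ _).trans (h.1 u v), fun u hu => congrArg g (h.2.1 u hu),
    fun u hu => congrArg g (h.2.2 u hu)⟩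

/-! ### Estimates for `c2` -/

theorem dist_c2_le {A : ℝ} (hp : ∀ u, dist (p u) (p' u) ≤ A) (hq : ∀ u, dist (q u) (q' u) ≤ A)
    (hw : ∀ u, dist (w u) (w' u) ≤ A) (u : ℝ) :
    dist (c2 m t p q w u) (c2 m t p' q' w' u) ≤ A := by
  unfold c2
  split_ifs
  · exact hp _
  · exact hw _
  · exact hq _

/-- change of the time -/
theorem dist_c2_time {t' : ℝ} (hq : Lip q) (h1 : w t = q 0) (hs : s ≤ t) (htt : t ≤ t')
    (hw : ∀ u, s ≤ u → w u = w t) (u : ℝ) :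
    dist (c2 m t p q w u) (c2 m t' p q w u) ≤ t' - t := by
  unfold c2
  split_ifs with a1 a2 a3 a4
  · rw [dist_self]; linarith
  · rw [dist_self]; linarith
  · linarith [not_le.1 a3]
  · have := not_le.1 a2
    rw [hw (u - m) (by linarith), h1, dist_comm]
    refine (hq.le (by linarith)).trans ?_
    linarith
  · have := not_le.1 a2
    have := not_le.1 a4
    rw [dist_comm]
    refine (hq.le (by linarith)).trans_eq ?_
    ring

theorem catf_map (g : M → M) (m : ℝ) (p q : ℝ → M) : catf m (g ∘ p) (g ∘ q) = g ∘ catf m p q := by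
  funext u
  show (if u ≤ m then g (p u) else g (q (u - m))) = g (if u ≤ m then p u else q (u - m))
  split_ifs <;> rfl

variable [CompactSpace M]

/-- conjugation -/
noncomputable def cg (g : M → M) (m t : ℝ) (p : ℝ → M) (w : ℝ →ᵇ M) : ℝ →ᵇ M :=
  mo (c2 m t p (g ∘ p) w)

section cg

variable {w w' : ℝ →ᵇ M}

theorem cg_lip (hg : ∀ x y, dist (g x) (g y) ≤ dist x y) (ht : 0 ≤ t) (hp : Pt m (w 0) z p)
    (hw : w ∈ XG g t) : Lip (c2 m t p (g ∘ p) w) := by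
  have hp' := hp.map hg
  have hw' : w ∈ P (w 0) (g (w 0)) t := hw
  exact lip_c2 hp.1 hp'.1 hw.1 ht hp.zero.symm (by rw [hp'.zero, eq_right hw' le_rfl])

theorem cg_apply (hg : ∀ x y, dist (g x) (g y) ≤ dist x y) (ht : 0 ≤ t) (hp : Pt m (w 0) z p)
    (hw : w ∈ XG g t) (u : ℝ) : cg g m t p w u = c2 m t p (g ∘ p) w u :=
  (cg_lip hg ht hp hw).mo_apply u

theorem cg_mem_P (hg : ∀ x y, dist (g x) (g y) ≤ dist x y) (hm : 0 ≤ m) (ht : 0 ≤ t)
    (hp : Pt m (w 0) z p) (hw : w ∈ XG g t) : cg g m t p w ∈ P z (g z) (t + (m + m)) := by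
  have hp' := hp.map hg
  have hw' : w ∈ P (w 0) (g (w 0)) t := hw
  exact mo_c2_mem hp.1 hp'.1 hw.1 ht hm hm hp.zero.symm
    (by rw [hp'.zero, eq_right hw' le_rfl]) hp.2.2 hp'.2.2

theorem mem_XL_of_P (h : w ∈ P z (g z) t) (hz : z ∈ V) : w ∈ XL g V t := by
  have h0 : w 0 = z := eq_left h le_rfl
  refine ⟨?_, ?_⟩
  · show w ∈ P (w 0) (g (w 0)) t
    rw [h0]
    exact h
  · rw [h0]
    exact hz

theorem XL_singleton (g : M → M) (x : M) (t : ℝ) : XL g {x} t = P x (g x) t := by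
  ext w
  constructor
  · rintro ⟨h1, h2⟩
    have h2' : w 0 = x := h2
    have h3 : w ∈ P (w 0) (g (w 0)) t := h1
    rwa [h2'] at h3
  · exact fun h => mem_XL_of_P h rfl

theorem cg_mem (hg : ∀ x y, dist (g x) (g y) ≤ dist x y) (hm : 0 ≤ m) (ht : 0 ≤ t)
    (hp : Pt m (w 0) z p) (hz : z ∈ V) (hw : w ∈ XG g t) : cg g m t p w ∈ XL g V (t + (m + m)) :=
  mem_XL_of_P (cg_mem_P hg hm ht hp hw) hz

theorem cg_start (hg : ∀ x y, dist (g x) (g y) ≤ dist x y) (hm : 0 ≤ m) (ht : 0 ≤ t)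
    (hp : Pt m (w 0) z p) (hw : w ∈ XG g t) : cg g m t p w 0 = z :=
  eq_left (cg_mem_P hg hm ht hp hw) le_rfl

/-- the composition of two conjugations -/
theorem cg_cg (hg : ∀ x y, dist (g x) (g y) ≤ dist x y) (hm : 0 ≤ m) (hm' : 0 ≤ m') (ht : 0 ≤ t)
    (hp : Pt m (w 0) z p) (hq : Pt m' z z' q) (hw : w ∈ XG g t) :
    cg g m' (t + (m + m)) q (cg g m t p w) = cg g (m + m') t (catf m p q) w := by
  have hp' := hp.map hg
  have hw' : w ∈ P (w 0) (g (w 0)) t := hw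
  unfold cg
  congr 1
  have e : (fun u => mo (c2 m t p (g ∘ p) w) u) = c2 m t p (g ∘ p) w := by
    funext u
    exact (cg_lip hg ht hp hw).mo_apply u
  funext u
  show c2 m' (t + (m + m)) q (g ∘ q) (fun u => mo (c2 m t p (g ∘ p) w) u) u = _
  rw [e, c2_c2 ht hm hm hm' hp.zero.symm (by rw [hp'.zero, eq_right hw' le_rfl]), catf_map]
  · rw [hp.2.2 m le_rfl, hq.zero]
  · rw [hp'.2.2 m le_rfl]
    exact congrArg g hq.zero.symm
  · intro u hu
    rw [hp.2.2 u hu, hp.2.2 m le_rfl]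
  · intro u hu
    rw [hp'.2.2 u hu, hp'.2.2 m le_rfl]

theorem dist_cg_le (hg : ∀ x y, dist (g x) (g y) ≤ dist x y) (ht : 0 ≤ t) {A : ℝ} (hA : 0 ≤ A)
    {p p' : ℝ → M} (hp : Pt m (w 0) z p) (hp' : Pt m (w' 0) z' p') (hw : w ∈ XG g t)
    (hw' : w' ∈ XG g t) (h1 : ∀ u, dist (p u) (p' u) ≤ A) (h2 : dist w w' ≤ A) :
    dist (cg g m t p w) (cg g m t p' w') ≤ A := by
  rw [BoundedContinuousFunction.dist_le hA]
  intro u
  rw [cg_apply hg ht hp hw, cg_apply hg ht hp' hw']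
  exact dist_c2_le h1 (fun u => (hg _ _).trans (h1 u))
    (fun u => (BoundedContinuousFunction.dist_coe_le_dist u).trans h2) u

end cg

/-! ### Uniform homotopies of conjugations -/

variable {I : Type} {D V : I → Set M}

theorem uh_conj (hg : ∀ x y, dist (g x) (g y) ≤ dist x y) (hm : 0 ≤ m) (ht : 0 ≤ t)
    (K : I → ℝ → M → ℝ → M)
    (h1 : ∀ i, ∀ s ∈ Icc (0:ℝ) 1, ∀ a ∈ D i, ∃ z ∈ V i, Pt m a z (K i s a))
    (h2 : ∀ ε > 0, ∃ δ > 0, ∀ i, ∀ s ∈ Icc (0:ℝ) 1, ∀ a ∈ D i, ∀ a' ∈ D i, dist a a' < δ →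
      ∀ u, dist (K i s a u) (K i s a' u) ≤ ε)
    (h3 : ∀ i, ∀ ε > 0, ∃ δ > 0, ∀ s ∈ Icc (0:ℝ) 1, ∀ s' ∈ Icc (0:ℝ) 1, |s - s'| < δ →
      ∀ a ∈ D i, ∀ u, dist (K i s a u) (K i s' a u) ≤ ε) :
    UH (fun i => XL g (D i) t) (fun i => XL g (V i) (t + (m + m)))
      (fun i w => cg g m t (K i 0 (w 0)) w) (fun i w => cg g m t (K i 1 (w 0)) w) := by
  refine ⟨fun i s w => cg g m t (K i s (w 0)) w, fun i s hs w hw => ?_, fun i w _ => rfl,
    fun i w _ => rfl, fun ε hε => ?_, fun i ε hε => ?_⟩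
  · obtain ⟨z, hz, hp⟩ := h1 i s hs (w 0) hw.2
    exact cg_mem hg hm ht hp hz hw.1
  · obtain ⟨δ, hδ, h⟩ := h2 (ε / 2) (half_pos hε)
    refine ⟨min δ (ε / 2), lt_min hδ (half_pos hε), fun i s hs w hw w' hw' hd => ?_⟩
    obtain ⟨z, hz, hp⟩ := h1 i s hs (w 0) hw.2
    obtain ⟨z', hz', hp'⟩ := h1 i s hs (w' 0) hw'.2
    have e0 : dist (w 0) (w' 0) < δ :=
      (BoundedContinuousFunction.dist_coe_le_dist 0).trans_lt (hd.trans_le (min_le_left _ _))
    exact (dist_cg_le hg ht (half_pos hε).le hp hp' hw.1 hw'.1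
      (h i s hs _ hw.2 _ hw'.2 e0) (hd.le.trans (min_le_right _ _))).trans_lt (half_lt_self hε)
  · obtain ⟨δ, hδ, h⟩ := h3 i (ε / 2) (half_pos hε)
    refine ⟨δ, hδ, fun s hs s' hs' hd w hw => ?_⟩
    obtain ⟨z, hz, hp⟩ := h1 i s hs (w 0) hw.2
    obtain ⟨z', hz', hp'⟩ := h1 i s' hs' (w 0) hw.2
    exact (dist_cg_le hg ht (half_pos hε).le hp hp' hw.1 hw.1 (h s hs s' hs' hd _ hw.2)
      (by rw [dist_self]; exact (half_pos hε).le)).trans_lt (half_lt_self hε)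

/-- one family of paths -/
theorem um_conj (hg : ∀ x y, dist (g x) (g y) ≤ dist x y) (hm : 0 ≤ m) (ht : 0 ≤ t)
    (K : I → M → ℝ → M) (h1 : ∀ i, ∀ a ∈ D i, ∃ z ∈ V i, Pt m a z (K i a))
    (h2 : ∀ ε > 0, ∃ δ > 0, ∀ i, ∀ a ∈ D i, ∀ a' ∈ D i, dist a a' < δ →
      ∀ u, dist (K i a u) (K i a' u) ≤ ε) :
    UM (fun i => XL g (D i) t) (fun i => XL g (V i) (t + (m + m)))
      (fun i w => cg g m t (K i (w 0)) w) :=
  (uh_conj (V := V) hg hm ht (fun i _ => K i) (fun i _ _ => h1 i) (fun ε hε => by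
    obtain ⟨δ, hδ, h⟩ := h2 ε hε
    exact ⟨δ, hδ, fun i _ _ => h i⟩) fun i ε hε => ⟨1, one_pos, fun _ _ _ _ _ a _ u => by
      rw [dist_self]; exact hε.le⟩).umL

/-- the shift of the time -/
theorem uh_shift (hg : ∀ x y, dist (g x) (g y) ≤ dist x y) (hm : 0 ≤ m) (ht : 0 ≤ t) :
    UH (fun i => XL g (D i) t) (fun i => XL g (D i) (t + (m + m))) (fun _ => id)
      (fun i w => cg g m t (fun _ => w 0) w) := by
  have hl : ∀ (w : ℝ →ᵇ M), w ∈ XG g t → ∀ r : ℝ, Lip fun u => w (u - r) := fun w hw r =>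
    Lip.comp (f := w) hw.1 fun u v => by
      rw [show u - r - (v - r) = u - v by ring]
  refine ⟨fun i s w => mo fun u => w (u - s * m), fun i s hs w hw => ?_, fun i w hw => ?_,
    fun i w hw => ?_, fun ε hε => ⟨ε, hε, fun i s hs w hw w' hw' hd => ?_⟩, fun i ε hε => ?_⟩
  · have h' : w ∈ P (w 0) (g (w 0)) t := hw.1
    have hsm := mul_nonneg hs.1 hm
    have hsm' : s * m ≤ m := mul_le_of_le_one_left hm hs.2
    refine mem_XL_of_P (z := w 0) (mo_mem (hl w hw.1 _) (fun u hu => ?_) fun u hu => ?_) hw.2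
    · exact eq_left h' (by linarith)
    · exact eq_right h' (by linarith)
  · show mo (fun u => w (u - 0 * m)) = w
    simp only [zero_mul, sub_zero]
    exact mo_self w
  · show mo (fun u => w (u - 1 * m)) = cg g m t (fun _ => w 0) w
    have h' : w ∈ P (w 0) (g (w 0)) t := hw.1
    unfold cg
    congr 1
    funext u
    rw [one_mul]
    exact (c2_const w (w 0) (g (w 0)) ht (fun u hu => eq_left h' hu)
      (fun u hu => eq_right h' hu)).symm
  · refine lt_of_le_of_lt ?_ hd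
    rw [BoundedContinuousFunction.dist_le dist_nonneg]
    intro u
    rw [(hl w hw.1 _).mo_apply, (hl w' hw'.1 _).mo_apply]
    exact BoundedContinuousFunction.dist_coe_le_dist _
  · refine ⟨ε / 2 / (m + 1), by positivity, fun s hs s' hs' hd w hw => ?_⟩
    refine lt_of_le_of_lt (b := ε / 2) ?_ (half_lt_self hε)
    rw [BoundedContinuousFunction.dist_le (half_pos hε).le]
    intro u
    rw [(hl w hw.1 _).mo_apply, (hl w hw.1 _).mo_apply]
    refine (hw.1.1 _ _).trans ?_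
    rw [show u - s * m - (u - s' * m) = -((s - s') * m) by ring, abs_neg, abs_mul, abs_of_nonneg hm]
    have h1 : |s - s'| * m ≤ ε / 2 / (m + 1) * m := mul_le_mul_of_nonneg_right hd.le hm
    refine h1.trans ?_
    rw [div_mul_eq_mul_div, div_le_iff₀ (by linarith)]
    nlinarith

/-- change of the level -/
theorem uh_level (hg : ∀ x y, dist (g x) (g y) ≤ dist x y) (hm : 0 ≤ m) (hs : 0 ≤ s) (hst : s ≤ t)
    (K : I → M → ℝ → M) (h1 : ∀ i, ∀ a ∈ D i, ∃ z ∈ V i, Pt m a z (K i a))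
    (h2 : ∀ ε > 0, ∃ δ > 0, ∀ i, ∀ a ∈ D i, ∀ a' ∈ D i, dist a a' < δ →
      ∀ u, dist (K i a u) (K i a' u) ≤ ε) :
    UH (fun i => XL g (D i) s) (fun i => XL g (V i) (t + (m + m)))
      (fun i w => cg g m s (K i (w 0)) w) (fun i w => cg g m t (K i (w 0)) w) := by
  have hσ : ∀ σ ∈ Icc (0:ℝ) 1, s ≤ s + σ * (t - s) ∧ s + σ * (t - s) ≤ t :=
    fun z hz => tm_aux' hst hz
  refine ⟨fun i σ w => cg g m (s + σ * (t - s)) (K i (w 0)) w, fun i σ h w hw => ?_,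
    fun i w _ => ?_, fun i w _ => ?_, fun ε hε => ?_, fun i ε hε => ?_⟩
  · obtain ⟨z, hz, hp⟩ := h1 i (w 0) hw.2
    exact XL_mono le_rfl (by linarith [(hσ σ h).2])
      (cg_mem hg hm (hs.trans (hσ σ h).1) hp hz (XG_mono (hσ σ h).1 hw.1))
  · show cg g m (s + 0 * (t - s)) (K i (w 0)) w = _
    rw [zero_mul, add_zero]
  · show cg g m (s + 1 * (t - s)) (K i (w 0)) w = _
    rw [one_mul, add_sub_cancel]
  · obtain ⟨δ, hδ, h⟩ := h2 (ε / 2) (half_pos hε)
    refine ⟨min δ (ε / 2), lt_min hδ (half_pos hε), fun i σ h' w hw w' hw' hd => ?_⟩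
    obtain ⟨z, hz, hp⟩ := h1 i (w 0) hw.2
    obtain ⟨z', hz', hp'⟩ := h1 i (w' 0) hw'.2
    have e0 : dist (w 0) (w' 0) < δ :=
      (BoundedContinuousFunction.dist_coe_le_dist 0).trans_lt (hd.trans_le (min_le_left _ _))
    exact (dist_cg_le hg (hs.trans (hσ σ h').1) (half_pos hε).le hp hp'
      (XG_mono (hσ σ h').1 hw.1) (XG_mono (hσ σ h').1 hw'.1) (h i _ hw.2 _ hw'.2 e0)
      (hd.le.trans (min_le_right _ _))).trans_lt (half_lt_self hε)
  · refine ⟨ε / 2 / (t - s + 1), by have := sub_nonneg.2 hst; positivity,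
      fun σ h σ' h' hd w hw => ?_⟩
    refine lt_of_le_of_lt (b := ε / 2) ?_ (half_lt_self hε)
    rw [BoundedContinuousFunction.dist_le (half_pos hε).le]
    intro u
    obtain ⟨z, hz, hp⟩ := h1 i (w 0) hw.2
    have hp' := hp.map hg
    have hwP : w ∈ P (w 0) (g (w 0)) s := hw.1
    have hts := sub_nonneg.2 hst
    -- reduce to `σ ≤ σ'`
    have key : ∀ σ ∈ Icc (0:ℝ) 1, ∀ σ' ∈ Icc (0:ℝ) 1, σ ≤ σ' → |σ - σ'| < ε / 2 / (t - s + 1) →
        dist (cg g m (s + σ * (t - s)) (K i (w 0)) w u)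
          (cg g m (s + σ' * (t - s)) (K i (w 0)) w u) ≤ ε / 2 := by
      intro σ h σ' h' hle hd
      rw [cg_apply hg (hs.trans (hσ σ h).1) hp (XG_mono (hσ σ h).1 hw.1),
        cg_apply hg (hs.trans (hσ σ' h').1) hp (XG_mono (hσ σ' h').1 hw.1)]
      refine (dist_c2_time (s := s) hp'.1 ?_ (hσ σ h).1 ?_ ?_ u).trans ?_
      · rw [hp'.zero, eq_right hwP (hσ σ h).1]
      · have := mul_le_mul_of_nonneg_right hle hts
        linarith
      · intro v hv
        rw [eq_right hwP hv, eq_right hwP (hσ σ h).1]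
      · rw [abs_of_nonpos (by linarith), neg_sub] at hd
        have h1 : (σ' - σ) * (t - s) ≤ ε / 2 / (t - s + 1) * (t - s) :=
          mul_le_mul_of_nonneg_right hd.le hts
        refine le_trans (by linarith) (h1.trans ?_)
        rw [div_mul_eq_mul_div, div_le_iff₀ (by linarith)]
        nlinarith
    rcases le_total σ σ' with hle | hle
    · exact key σ h σ' h' hle hd
    · rw [dist_comm]
      exact key σ' h' σ h hle (by rwa [abs_sub_comm])

end

end Vale.Agent.P216.H923E
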