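import Vale.Agent.P216.H923E.Cj

/-!
# P216-D, [E2], the geometry of the fibre step

`g` is a map with `dist (g x) (g y) ≤ dist x y` (`id`: free loops, constant: paths to a point).
`φ x t` conjugates the paths which start near `x` to `x₀`, `ψ x t` conjugates back to `x`.

`FG g x₀ r0 c φ ψ`: the properties (G0) - (G4); `exists_fg`.
-/

set_option linter.all false

open Set BoundedContinuousFunction

namespace Vale.Agent.P216.H923E

open Vale.Agent.P216.PS Vale.Agent.P216.MV337 Vale.Agent.P216.C337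
open Vale.Agent.P216.Sl (IsPi)

variable {M : Type} [MetricSpace M]

/-! ### Segments as paths -/

/-- the clamp to `[0, 1]` -/
noncomputable def cl1 (v : ℝ) : ℝ := max 0 (min 1 v)

theorem cl1_mem (v : ℝ) : cl1 v ∈ Icc (0:ℝ) 1 :=
  ⟨le_max_left _ _, max_le zero_le_one (min_le_left _ _)⟩

theorem cl1_nonpos {v : ℝ} (h : v ≤ 0) : cl1 v = 0 :=
  max_eq_left ((min_le_right _ _).trans h)

theorem cl1_ge {v : ℝ} (h : 1 ≤ v) : cl1 v = 1 := by
  unfold cl1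
  rw [min_eq_left h, max_eq_right zero_le_one]

theorem abs_cl1_sub_le (u v : ℝ) : |cl1 u - cl1 v| ≤ |u - v| := by
  unfold cl1
  refine (abs_max_sub_max_le_max _ _ _ _).trans (max_le (by simp) ?_)
  exact (abs_min_sub_min_le_max _ _ _ _).trans (max_le (by simp) le_rfl)

/-- the segment from `a` to `x`, in time `R` -/
noncomputable def sg (R : ℝ) (a x : M) (u : ℝ) : M := LS.seg a x (cl1 (u / R))

variable {ρ R : ℝ} {a x y : M}

theorem sg_pt (hU : LS.UniqSeg M ρ) (hR : 0 < R) (h1 : dist a x < ρ) (h2 : dist a x ≤ R) :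
    Pt R a x (sg R a x) := by
  refine ⟨fun u v => ?_, fun u hu => ?_, fun u hu => ?_⟩
  · unfold sg
    rw [LS.dist_seg_seg hU h1 (cl1_mem _) (cl1_mem _)]
    have h3 := abs_cl1_sub_le (u / R) (v / R)
    rw [← sub_div, abs_div, abs_of_pos hR] at h3
    calc |cl1 (u / R) - cl1 (v / R)| * dist a x ≤ |u - v| / R * R :=
        mul_le_mul h3 h2 dist_nonneg (by positivity)
      _ = |u - v| := div_mul_cancel₀ _ hR.ne'
  · unfold sg
    rw [cl1_nonpos (div_nonpos_of_nonpos_of_nonneg hu hR.le), LS.seg_zero]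
  · unfold sg
    rw [cl1_ge ((one_le_div hR).2 hu), LS.seg_one]

theorem sg_self (R : ℝ) (a : M) : sg R a a = fun _ => a := by
  funext u
  unfold sg
  rw [LS.seg_self]

/-- uniform continuity of the segments -/
theorem sg_unif [CompactSpace M] (hU : LS.UniqSeg M ρ) {ρ' : ℝ} (hρ : ρ' < ρ) {ε : ℝ}
    (hε : 0 < ε) : ∃ δ > 0, ∀ (a a' x x' : M) (u : ℝ), dist a x ≤ ρ' → dist a' x' ≤ ρ' →
      dist a a' ≤ δ → dist x x' ≤ δ → dist (sg R a x u) (sg R a' x' u) ≤ ε := by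
  obtain ⟨δ, hδ, h⟩ := LS.unifCont_seg hU hρ hε
  exact ⟨δ, hδ, fun a a' x x' u h1 h2 h3 h4 => h a a' x x' _ _ h1 h2 (cl1_mem _) (cl1_mem _) h3 h4
    (by rw [sub_self, abs_zero]; exact hδ.le)⟩

theorem dist_catf_le {m A : ℝ} {p p' q q' : ℝ → M} (h1 : ∀ u, dist (p u) (p' u) ≤ A)
    (h2 : ∀ u, dist (q u) (q' u) ≤ A) (u : ℝ) : dist (catf m p q u) (catf m p' q' u) ≤ A := by
  unfold catf
  split_ifs
  · exact h1 _
  · exact h2 _

/-- the ball -/
def NB (x : M) (r : ℝ) : Set M := {y | dist x y ≤ r}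

theorem NB_mono {r r' : ℝ} (h : r ≤ r') : NB x r ⊆ NB x r' := fun _ hy => le_trans hy h

/-! ### The maps -/

/-- The tracks: `c x` is a path from `x` to `x₀` of time `ℓ₀`. -/
structure Tr0 (x₀ : M) (ρ R ℓ₀ D ℓ r0 : ℝ) (c : M → ℝ → M) : Prop where
  hU : LS.UniqSeg M ρ
  hR : 0 < R
  hRρ : R < ρ
  hr0 : 0 < r0
  hrR : 2 * r0 ≤ R
  hℓ₀ : 0 ≤ ℓ₀
  hD : IsPi M D
  hℓ : R + ℓ₀ + D ≤ ℓ
  hc : ∀ x, Pt ℓ₀ x x₀ (c x)

/-- the path of `φ` -/
noncomputable def pφ (R : ℝ) (c : M → ℝ → M) (x a : M) : ℝ → M := catf R (sg R a x) (c x)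

/-- the path of `ψ` -/
def pψ (ℓ : ℝ) (c : M → ℝ → M) (x : M) (u : ℝ) : M := c x (ℓ - u)

variable [CompactSpace M]

/-- conjugation to `x₀` of the paths which start near `x` -/
noncomputable def phi (g : M → M) (R ℓ : ℝ) (c : M → ℝ → M) (x : M) (t : ℝ) (w : ℝ →ᵇ M) :
    ℝ →ᵇ M := cg g (R + ℓ) t (pφ R c x (w 0)) w

/-- conjugation back to `x` -/
noncomputable def psi (g : M → M) (R ℓ : ℝ) (c : M → ℝ → M) (x : M) (t : ℝ) (v : ℝ →ᵇ M) :
    ℝ →ᵇ M := cg g (R + ℓ) t (pψ ℓ c x) v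

variable {g : M → M} {x₀ : M} {ℓ₀ D ℓ r0 t s : ℝ} {c : M → ℝ → M}

namespace Tr0

variable (T : Tr0 x₀ ρ R ℓ₀ D ℓ r0 c)
include T

theorem ℓ_nonneg : 0 ≤ ℓ := by
  linarith [T.hR, T.hℓ₀, T.hD.nonneg, T.hℓ]

theorem m_nonneg : 0 ≤ R + ℓ := by linarith [T.hR, T.ℓ_nonneg]

theorem hℓ₀ℓ : ℓ₀ ≤ ℓ := by linarith [T.hR, T.hℓ₀, T.hD.nonneg, T.hℓ]

theorem cpt (x : M) : Pt ℓ x x₀ (c x) := (T.hc x).le T.hℓ₀ℓ

theorem sgp {r : ℝ} (hr : r ≤ r0) {a x : M} (h : a ∈ NB x r) : Pt R a x (sg R a x) := by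
  have h1 : dist x a ≤ r := h
  rw [dist_comm] at h1
  exact sg_pt T.hU T.hR (by linarith [T.hrR, T.hRρ, T.hr0]) (by linarith [T.hrR, T.hr0])

theorem pφ_pt {r : ℝ} (hr : r ≤ r0) {a x : M} (h : a ∈ NB x r) :
    Pt (R + ℓ) a x₀ (pφ R c x a) := (T.sgp hr h).cat (T.cpt x) T.hR.le T.ℓ_nonneg

theorem pψ_pt (x : M) : Pt (R + ℓ) x₀ x (pψ ℓ c x) :=
  (T.cpt x).rev.le (by linarith [T.hR])

theorem pφ_unif {ε : ℝ} (hε : 0 < ε) : ∃ δ > 0, ∀ (x : M), ∀ a ∈ NB x r0, ∀ a' ∈ NB x r0,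
    dist a a' < δ → ∀ u, dist (pφ R c x a u) (pφ R c x a' u) ≤ ε := by
  obtain ⟨δ, hδ, h⟩ := sg_unif (R := R) T.hU T.hRρ hε
  refine ⟨δ, hδ, fun x a ha a' ha' hd u => dist_catf_le (fun u => ?_) (fun u => ?_) u⟩
  · have h1 : dist x a ≤ r0 := ha
    have h2 : dist x a' ≤ r0 := ha'
    rw [dist_comm] at h1 h2
    exact h a a' x x u (by linarith [T.hrR, T.hr0]) (by linarith [T.hrR, T.hr0]) hd.le
      (by rw [dist_self]; exact hδ.le)
  · rw [dist_self]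
    exact hε.le

/-- **(G0)** -/
theorem g0 (hg : ∀ x y, dist (g x) (g y) ≤ dist x y) (ht : 0 ≤ t) :
    UM (fun x => XL g (NB x r0) t) (fun _ => XL g {x₀} (t + (R + ℓ + (R + ℓ))))
      (fun x => phi g R ℓ c x t) :=
  um_conj (D := fun x => NB x r0) (V := fun _ => {x₀}) hg T.m_nonneg ht (fun x a => pφ R c x a)
    (fun x a ha => ⟨x₀, rfl, T.pφ_pt le_rfl ha⟩) fun ε hε => T.pφ_unif hε

theorem psi_mem (hg : ∀ x y, dist (g x) (g y) ≤ dist x y) (ht : 0 ≤ t) (x : M) :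
    MapsTo (psi g R ℓ c x t) (XL g {x₀} t) (XL g {x} (t + (R + ℓ + (R + ℓ)))) := fun v hv => by
  have h : v 0 = x₀ := hv.2
  exact cg_mem (z := x) hg T.m_nonneg ht (by rw [h]; exact T.pψ_pt x) rfl hv.1

theorem psi_dist (hg : ∀ x y, dist (g x) (g y) ≤ dist x y) (ht : 0 ≤ t) (x : M) {v v' : ℝ →ᵇ M}
    (hv : v ∈ XL g {x₀} t) (hv' : v' ∈ XL g {x₀} t) :
    dist (psi g R ℓ c x t v) (psi g R ℓ c x t v') ≤ dist v v' := by
  have h : v 0 = x₀ := hv.2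
  have h' : v' 0 = x₀ := hv'.2
  exact dist_cg_le (z := x) (z' := x) hg ht dist_nonneg (by rw [h]; exact T.pψ_pt x)
    (by rw [h']; exact T.pψ_pt x) hv.1 hv'.1 (fun u => by rw [dist_self]; exact dist_nonneg) le_rfl

theorem umψ (hg : ∀ x y, dist (g x) (g y) ≤ dist x y) (ht : 0 ≤ t) :
    UM (fun _ : M => XL g {x₀} t) (fun x => XL g {x} (t + (R + ℓ + (R + ℓ))))
      (fun x => psi g R ℓ c x t) :=
  ⟨fun x => T.psi_mem hg ht x, fun ε hε => ⟨ε, hε, fun x v hv v' hv' hd =>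
    (T.psi_dist hg ht x hv hv').trans_lt hd⟩⟩

/-- **(G1)** -/
theorem g1 (hg : ∀ x y, dist (g x) (g y) ≤ dist x y) (ht : 0 ≤ t) :
    UH (fun _ : M => XL g {x₀} t)
      (fun _ => XL g {x₀} (t + (R + ℓ + (R + ℓ)) + (R + ℓ + (R + ℓ)))) (fun _ => id)
      (fun x => phi g R ℓ c x (t + (R + ℓ + (R + ℓ))) ∘ psi g R ℓ c x t) := by
  have hm := T.m_nonneg
  have hℓ := T.ℓ_nonneg
  have hR := T.hR
  have hm2 : 0 ≤ R + ℓ + (R + ℓ) := by linarith
  -- the time shift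
  have H1 := uh_shift (D := fun _ : M => {x₀}) hg hm2 ht
  -- the excursions
  have H2 := uh_conj (D := fun _ : M => {x₀}) (V := fun _ => {x₀}) hg hm2 ht
    (fun x σ _ u => c x (ℓ - min (σ * (R + ℓ)) (min u (2 * (R + ℓ) - u))))
    (fun x σ hσ a ha => ⟨x₀, rfl, ?_, ?_, ?_⟩)
    (fun ε hε => ⟨1, one_pos, fun x σ hσ a _ a' _ _ u => by rw [dist_self]; exact hε.le⟩)
    (fun x ε hε => ⟨ε / (R + ℓ + 1), by positivity, fun σ hσ σ' hσ' hd a _ u => ?_⟩)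
  · have e : t + (R + ℓ + (R + ℓ)) + (R + ℓ + (R + ℓ)) =
        t + ((R + ℓ + (R + ℓ)) + (R + ℓ + (R + ℓ))) := by ring
    rw [e]
    refine (H1.trans (H2.congr (fun x v hv => ?_) fun _ _ _ => rfl)).congr
      (fun _ _ _ => rfl) fun x v hv => ?_
    · have h0 : v 0 = x₀ := hv.2
      show cg g _ t (fun u => c x (ℓ - min (0 * (R + ℓ)) (min u (2 * (R + ℓ) - u)))) v = _
      congr 1
      funext u
      rw [h0, zero_mul]
      exact (T.hc x).2.2 _ (by linarith [min_le_left (0:ℝ) (min u (2 * (R + ℓ) - u)), T.hℓ₀ℓ])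
    · have h0 : v 0 = x₀ := hv.2
      have hs : psi g R ℓ c x t v 0 = x := (T.psi_mem hg ht x hv).2
      show cg g _ t (fun u => c x (ℓ - min (1 * (R + ℓ)) (min u (2 * (R + ℓ) - u)))) v = _
      show _ = cg g (R + ℓ) (t + (R + ℓ + (R + ℓ))) (pφ R c x (psi g R ℓ c x t v 0))
        (cg g (R + ℓ) t (pψ ℓ c x) v)
      rw [hs, cg_cg (z := x) (z' := x₀) hg hm hm ht (by rw [h0]; exact T.pψ_pt x)
        (T.pφ_pt (r := r0) le_rfl (by show dist x x ≤ r0; rw [dist_self]; exact T.hr0.le)) hv.1]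
      congr 1
      funext u
      rw [one_mul]
      have e1 : min (R + ℓ) (min u (2 * (R + ℓ) - u)) = min u (2 * (R + ℓ) - u) := by
        refine min_eq_right ?_
        rcases le_total u (R + ℓ) with h | h
        · exact (min_le_left _ _).trans h
        · exact (min_le_right _ _).trans (by linarith)
      rw [e1]
      rcases le_total u (R + ℓ) with h | h
      · rw [catf_left h, min_eq_left (by linarith)]
        rfl
      · have ep : pψ ℓ c x (R + ℓ) = pφ R c x x 0 := by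
          rw [(T.pψ_pt x).2.2 _ le_rfl, (T.pφ_pt (r := r0) le_rfl (by
            show dist x x ≤ r0; rw [dist_self]; exact T.hr0.le)).zero]
        rw [catf_right ep h, min_eq_right (by linarith)]
        have e2 : ℓ - (2 * (R + ℓ) - u) = u - (R + ℓ) - R := by ring
        rw [e2]
        unfold pφ
        rw [sg_self]
        rcases le_total (u - (R + ℓ)) R with h' | h'
        · rw [catf_left h', (T.hc x).2.1 _ (by linarith)]
        · rw [catf_right (T.hc x).zero.symm h']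
  · refine (T.hc x).1.comp fun u v => ?_
    rw [show ℓ - min (σ * (R + ℓ)) (min u (2 * (R + ℓ) - u)) -
      (ℓ - min (σ * (R + ℓ)) (min v (2 * (R + ℓ) - v))) =
      -(min (σ * (R + ℓ)) (min u (2 * (R + ℓ) - u)) -
        min (σ * (R + ℓ)) (min v (2 * (R + ℓ) - v))) by ring, abs_neg]
    refine (abs_min_sub_min_le_max _ _ _ _).trans (max_le (by simp) ?_)
    refine (abs_min_sub_min_le_max _ _ _ _).trans (max_le le_rfl ?_)
    rw [show 2 * (R + ℓ) - u - (2 * (R + ℓ) - v) = -(u - v) by ring, abs_neg]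
  · intro u hu
    have ha' : a = x₀ := ha
    rw [ha']
    refine (T.hc x).2.2 _ ?_
    have := (min_le_right (σ * (R + ℓ)) (min u (2 * (R + ℓ) - u))).trans (min_le_left _ _)
    linarith [T.hℓ₀ℓ]
  · intro u hu
    refine (T.hc x).2.2 _ ?_
    have := (min_le_right (σ * (R + ℓ)) (min u (2 * (R + ℓ) - u))).trans (min_le_right _ _)
    linarith [T.hℓ₀ℓ]
  · refine ((T.hc x).1 _ _).trans ?_
    rw [show ℓ - min (σ * (R + ℓ)) (min u (2 * (R + ℓ) - u)) -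
      (ℓ - min (σ' * (R + ℓ)) (min u (2 * (R + ℓ) - u))) =
      -(min (σ * (R + ℓ)) (min u (2 * (R + ℓ) - u)) -
        min (σ' * (R + ℓ)) (min u (2 * (R + ℓ) - u))) by ring, abs_neg]
    refine (abs_min_sub_min_le_max _ _ _ _).trans (max_le ?_ (by rw [sub_self, abs_zero]; exact hε.le))
    rw [← sub_mul, abs_mul, abs_of_nonneg hm]
    refine (mul_le_mul_of_nonneg_right hd.le hm).trans ?_
    rw [div_mul_eq_mul_div, div_le_iff₀ (by linarith)]
    nlinarith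

/-- the paths of the last homotopy of (G2) -/
noncomputable def kC (R ℓ : ℝ) (c : M → ℝ → M) (x : M) (σ : ℝ) (a : M) : ℝ → M :=
  catf R (sg R a x) fun v => c x (ℓ - max (ℓ - σ * ℓ) |v - ℓ|)

omit T [CompactSpace M] in
theorem abs_kC (ℓ σ u v : ℝ) :
    |(ℓ - max (ℓ - σ * ℓ) |u - ℓ|) - (ℓ - max (ℓ - σ * ℓ) |v - ℓ|)| ≤ |u - v| := by
  rw [show (ℓ - max (ℓ - σ * ℓ) |u - ℓ|) - (ℓ - max (ℓ - σ * ℓ) |v - ℓ|) =
    -(max (ℓ - σ * ℓ) |u - ℓ| - max (ℓ - σ * ℓ) |v - ℓ|) by ring, abs_neg]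
  refine (abs_max_sub_max_le_max _ _ _ _).trans (max_le (by simp) ?_)
  refine (abs_abs_sub_abs_le_abs_sub _ _).trans (le_of_eq ?_)
  congr 1
  ring

theorem kC_pt {r : ℝ} (hr : r ≤ r0) {σ : ℝ} (hσ : σ ∈ Icc (0:ℝ) 1) {a x : M}
    (h : a ∈ NB x r) : Pt (R + ℓ + (R + ℓ)) a x (kC R ℓ c x σ a) := by
  have hℓ := T.ℓ_nonneg
  have hR := T.hR
  have h1 : Pt (ℓ + ℓ) x x fun v => c x (ℓ - max (ℓ - σ * ℓ) |v - ℓ|) := by
    refine ⟨(T.hc x).1.comp fun u v => abs_kC ℓ σ u v, fun u hu => (T.hc x).2.1 _ ?_,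
      fun u hu => (T.hc x).2.1 _ ?_⟩
    · have h2 := le_max_right (ℓ - σ * ℓ) |u - ℓ|
      rw [abs_of_nonpos (by linarith : u - ℓ ≤ 0)] at h2 ⊢
      linarith
    · have h2 := le_max_right (ℓ - σ * ℓ) |u - ℓ|
      rw [abs_of_nonneg (by linarith : 0 ≤ u - ℓ)] at h2 ⊢
      linarith
  exact ((T.sgp hr h).cat h1 hR.le (by linarith)).le (by linarith)

/-- **(G2)** -/
theorem g2 (hg : ∀ x y, dist (g x) (g y) ≤ dist x y) (ht : 0 ≤ t) :
    UH (I := {q : M × ℝ // 0 ≤ q.2 ∧ q.2 ≤ r0}) (fun q => XL g (NB q.1.1 q.1.2) t)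
      (fun q => XL g (NB q.1.1 q.1.2) (t + (R + ℓ + (R + ℓ)) + (R + ℓ + (R + ℓ)))) (fun _ => id)
      (fun q => psi g R ℓ c q.1.1 (t + (R + ℓ + (R + ℓ))) ∘ phi g R ℓ c q.1.1 t) := by
  have hm := T.m_nonneg
  have hℓ := T.ℓ_nonneg
  have hR := T.hR
  have hr0 := T.hr0
  have hrR := T.hrR
  have hRρ := T.hRρ
  have hm2 : 0 ≤ R + ℓ + (R + ℓ) := by linarith
  have hnear : ∀ (q : {q : M × ℝ // 0 ≤ q.2 ∧ q.2 ≤ r0}) (a : M), a ∈ NB q.1.1 q.1.2 →
      dist a q.1.1 ≤ r0 := fun q a ha => by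
    have h : dist q.1.1 a ≤ q.1.2 := ha
    rw [dist_comm] at h
    exact h.trans q.2.2
  -- the time shift
  have H1 := uh_shift (D := fun q : {q : M × ℝ // 0 ≤ q.2 ∧ q.2 ≤ r0} => NB q.1.1 q.1.2) hg hm2 ht
  -- along the segment
  have H2 := uh_conj (D := fun q : {q : M × ℝ // 0 ≤ q.2 ∧ q.2 ≤ r0} => NB q.1.1 q.1.2)
    (V := fun q => NB q.1.1 q.1.2) hg hm2 ht
    (fun q σ a u => sg R a q.1.1 (min u (σ * R)))
    (fun q σ hσ a ha => ⟨sg R a q.1.1 (σ * R), ?_, ?_, ?_, ?_⟩)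
    (fun ε hε => ?_)
    (fun q ε hε => ⟨ε / R, by positivity, fun σ hσ σ' hσ' hd a ha u => ?_⟩)
  rotate_left
  · show dist q.1.1 (LS.seg a q.1.1 (cl1 (σ * R / R))) ≤ q.1.2
    rw [dist_comm, LS.dist_seg_right T.hU (by linarith [hnear q a ha]) (cl1_mem _)]
    have h : dist q.1.1 a ≤ q.1.2 := ha
    rw [dist_comm] at h
    refine le_trans ?_ h
    exact mul_le_of_le_one_left dist_nonneg (by linarith [(cl1_mem (σ * R / R)).1])
  · refine (T.sgp q.2.2 ha).1.comp fun u v => ?_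
    exact (abs_min_sub_min_le_max _ _ _ _).trans (max_le le_rfl (by simp))
  · exact fun u hu => (T.sgp q.2.2 ha).2.1 _ ((min_le_left _ _).trans hu)
  · intro u hu
    show sg R a q.1.1 (min u (σ * R)) = _
    rw [min_eq_right]
    have : σ * R ≤ R := mul_le_of_le_one_left hR.le hσ.2
    linarith
  · obtain ⟨δ, hδ, h⟩ := sg_unif (R := R) T.hU hRρ hε
    refine ⟨δ, hδ, fun q σ hσ a ha a' ha' hd u => h a a' _ _ _ (by linarith [hnear q a ha])
      (by linarith [hnear q a' ha']) hd.le (by rw [dist_self]; exact hδ.le)⟩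
  · refine ((T.sgp q.2.2 ha).1 _ _).trans ?_
    refine (abs_min_sub_min_le_max _ _ _ _).trans (max_le (by rw [sub_self, abs_zero]; exact hε.le) ?_)
    rw [← sub_mul, abs_mul, abs_of_pos hR]
    exact (mul_le_mul_of_nonneg_right hd.le hR.le).trans_eq (div_mul_cancel₀ _ hR.ne')
  -- along the track
  have H3 := uh_conj (D := fun q : {q : M × ℝ // 0 ≤ q.2 ∧ q.2 ≤ r0} => NB q.1.1 q.1.2)
    (V := fun q => {q.1.1}) hg hm2 ht
    (fun q σ a => kC R ℓ c q.1.1 σ a)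
    (fun q σ hσ a ha => ⟨q.1.1, rfl, T.kC_pt q.2.2 hσ ha⟩)
    (fun ε hε => ?_)
    (fun q ε hε => ⟨ε / (ℓ + 1), by positivity, fun σ hσ σ' hσ' hd a ha u => ?_⟩)
  rotate_left
  · obtain ⟨δ, hδ, h⟩ := sg_unif (R := R) T.hU hRρ hε
    refine ⟨δ, hδ, fun q σ hσ a ha a' ha' hd u => dist_catf_le (fun u => h a a' _ _ _
      (by linarith [hnear q a ha]) (by linarith [hnear q a' ha']) hd.le
      (by rw [dist_self]; exact hδ.le)) (fun u => by rw [dist_self]; exact hε.le) u⟩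
  · refine dist_catf_le (fun u => by rw [dist_self]; exact hε.le) (fun v => ?_) u
    refine ((T.hc q.1.1).1 _ _).trans ?_
    rw [show ℓ - max (ℓ - σ * ℓ) |v - ℓ| - (ℓ - max (ℓ - σ' * ℓ) |v - ℓ|) =
      -(max (ℓ - σ * ℓ) |v - ℓ| - max (ℓ - σ' * ℓ) |v - ℓ|) by ring, abs_neg]
    refine (abs_max_sub_max_le_max _ _ _ _).trans
      (max_le ?_ (by rw [sub_self, abs_zero]; exact hε.le))
    rw [show ℓ - σ * ℓ - (ℓ - σ' * ℓ) = -((σ - σ') * ℓ) by ring, abs_neg, abs_mul,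
      abs_of_nonneg hℓ]
    refine (mul_le_mul_of_nonneg_right hd.le hℓ).trans ?_
    rw [div_mul_eq_mul_div, div_le_iff₀ (by linarith)]
    nlinarith
  have e : t + (R + ℓ + (R + ℓ)) + (R + ℓ + (R + ℓ)) =
      t + ((R + ℓ + (R + ℓ)) + (R + ℓ + (R + ℓ))) := by ring
  rw [e]
  refine (H1.trans ((H2.congr (fun q w hw => ?_) fun q w hw => ?_).trans
    ((H3.mono (fun _ => le_rfl) fun q => ?_).congr (f' := fun q w => cg g (R + ℓ + (R + ℓ)) t
      (sg R (w 0) q.1.1) w) (fun q w hw => ?_) fun _ _ _ => rfl))).congr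
      (fun _ _ _ => rfl) fun q w hw => ?_
  · show cg g _ t (fun u => sg R (w 0) q.1.1 (min u (0 * R))) w = _
    congr 1
    funext u
    rw [zero_mul]
    exact (T.sgp q.2.2 hw.2).2.1 _ (min_le_right _ _)
  · show cg g _ t (fun u => sg R (w 0) q.1.1 (min u (1 * R))) w = _
    congr 1
    funext u
    rw [one_mul]
    rcases le_total u R with h | h
    · rw [min_eq_left h]
    · rw [min_eq_right h, (T.sgp q.2.2 hw.2).2.2 _ le_rfl, (T.sgp q.2.2 hw.2).2.2 _ h]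
  · rintro w ⟨h1, h2⟩
    have h2' : w 0 = q.1.1 := h2
    refine ⟨h1, ?_⟩
    show dist q.1.1 (w 0) ≤ q.1.2
    rw [h2', dist_self]
    exact q.2.1
  · show cg g _ t (kC R ℓ c q.1.1 0 (w 0)) w = _
    congr 1
    funext u
    unfold kC
    rcases le_total u R with h | h
    · rw [catf_left h]
    · have hx : ∀ v : ℝ, c q.1.1 (ℓ - max (ℓ - 0 * ℓ) |v - ℓ|) = q.1.1 := fun v =>
        (T.hc q.1.1).2.1 _ (by
          have := le_max_left (ℓ - 0 * ℓ) |v - ℓ|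
          linarith)
      rw [catf_right ?_ h, hx, (T.sgp q.2.2 hw.2).2.2 _ h]
      rw [hx, (T.sgp q.2.2 hw.2).2.2 _ le_rfl]
  · show cg g _ t (kC R ℓ c q.1.1 1 (w 0)) w = cg g (R + ℓ) (t + (R + ℓ + (R + ℓ)))
      (pψ ℓ c q.1.1) (cg g (R + ℓ) t (pφ R c q.1.1 (w 0)) w)
    rw [cg_cg (z := x₀) (z' := q.1.1) hg hm hm ht (T.pφ_pt q.2.2 hw.2) (T.pψ_pt q.1.1) hw.1]
    congr 1
    funext u
    have e0 : sg R (w 0) q.1.1 R = c q.1.1 0 := by
      rw [(T.sgp q.2.2 hw.2).2.2 _ le_rfl, (T.hc _).zero]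
    have ez : ∀ v, c q.1.1 (ℓ - max (ℓ - 1 * ℓ) |v - ℓ|) = c q.1.1 (ℓ - |v - ℓ|) := fun v => by
      rw [one_mul, sub_self, max_eq_right (abs_nonneg _)]
    have e1 : sg R (w 0) q.1.1 R = c q.1.1 (ℓ - max (ℓ - 1 * ℓ) |0 - ℓ|) := by
      rw [e0, ez, zero_sub, abs_neg, abs_of_nonneg hℓ, sub_self]
    have e2 : pφ R c q.1.1 (w 0) (R + ℓ) = pψ ℓ c q.1.1 0 := by
      rw [(T.pφ_pt q.2.2 hw.2).2.2 _ le_rfl, (T.pψ_pt q.1.1).zero]
    show catf R (sg R (w 0) q.1.1) (fun v => c q.1.1 (ℓ - max (ℓ - 1 * ℓ) |v - ℓ|)) u = _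
    rcases le_total u R with h | h
    · rw [catf_left h, catf_left (by linarith)]
      unfold pφ
      rw [catf_left h]
    · rw [catf_right e1 h, ez]
      rcases le_total u (R + ℓ) with h' | h'
      · rw [catf_left h']
        unfold pφ
        rw [catf_right e0 h, abs_of_nonpos (by linarith)]
        congr 1
        ring
      · rw [catf_right e2 h', abs_of_nonneg (by linarith)]
        show _ = c q.1.1 (ℓ - (u - (R + ℓ)))
        congr 1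
        ring

end Tr0

end Vale.Agent.P216.H923E
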